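import Vale.Agent.P040.H251.Class
import Vale.Agent.P040.H906.Sel3
import Vale.Agent.P040.H457.Sel

/-!
The selector on an arbitrary linear order: a term of `SelApi` (P040, helper251), from the pruning
outcome `Out` of H906.
-/

set_option linter.unusedSectionVars false
set_option linter.unusedVariables false

namespace P040H251

open Vale.Agent.P040.H906

section

variable {W : Type*} [LinearOrder W]

/-- value at the survivor of colour `true` -/
noncomputable def vt (col : W → Bool) (c : Cfg W) (E : W → ℝ) : ℝ := by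
  classical
  exact if h : ∃ a, Out E col c a then E h.choose else 0

theorem vt_eq {col : W → Bool} {c : Cfg W} {E : W → ℝ} {a : W} (hg : c.Good)
    (hcol : ColOK col c) (ho : Out E col c a) : vt col c E = E a := by
  unfold vt
  have h : ∃ a, Out E col c a := ⟨a, ho⟩
  rw [dif_pos h]
  exact out_unique _ c rfl hg hcol _ _ h.choose_spec ho

theorem dl_add {c : Cfg W} {E : W → ℝ} (t : ℝ) (b : Bool) (x : W) :
    c.dl (fun y => E y + t) b x = c.dl E b x := by
  unfold Cfg.dl; ring

theorem valid_add {c : Cfg W} {E : W → ℝ} {M : ℝ} (t : ℝ) (h : c.Valid E M) :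
    c.Valid (fun y => E y + t) M := by
  intro b T hT hPD
  have := h b T hT hPD
  simp only [dl_add]
  exact this

theorem out_add {col : W → Bool} {c : Cfg W} {E : W → ℝ} {a : W} (t : ℝ)
    (h : Out E col c a) : Out (fun y => E y + t) col c a := by
  induction h with
  | base h1 h2 h3 => exact Out.base h1 h2 h3
  | step h1 h2 h3 _ ih =>
    refine Out.step h1 h2 ?_ ih
    rw [dl_add]; exact valid_add t h3

theorem exists_out' {col : W → Bool} {c : Cfg W} {E : W → ℝ} {M : ℝ} (hg : c.Good)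
    (hcol : ColOK col c) (hv : c.Valid E M) : ∃ a, Out E col c a :=
  exists_out _ c rfl hg hcol M hv

theorem vt_add {col : W → Bool} {c : Cfg W} {E : W → ℝ} {M : ℝ} (t : ℝ) (hg : c.Good)
    (hcol : ColOK col c) (hv : c.Valid E M) :
    vt col c (fun y => E y + t) = vt col c E + t := by
  obtain ⟨a, ha⟩ := exists_out' hg hcol hv
  rw [vt_eq hg hcol ha, vt_eq hg hcol (out_add t ha)]

theorem vt_leaf {col : W → Bool} {c : Cfg W} {E : W → ℝ} {M : ℝ} {b : Bool} {x : W}
    (hg : c.Good) (hcol : ColOK col c) (hv : c.Valid E M) (hc : 2 < c.S.card)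
    (hl : c.Leaf b x) (h0 : M + c.dl E b x = 0) : vt col (c.del b x) E = vt col c E := by
  have hM : M = -(c.dl E b x) := by linarith
  subst hM
  obtain ⟨a, ha⟩ := exists_out_del hg hcol hc hl hv
  rw [vt_eq (Cfg.good_del hg hc hl) (hcol.del hg b hl.1) ha,
    vt_eq hg hcol (Out.step hc hl hv ha)]

theorem vt_iso {col col' : W → Bool} {c c' : Cfg W} {E E' : W → ℝ} {M : ℝ} {φ : W → W}
    (hg : c.Good) (hg' : c'.Good) (hcol : ColOK col c) (hcol' : ColOK col' c')
    (hv : c.Valid E M) (hi : Iso φ c c') (hE : ∀ x ∈ c.S, E' (φ x) = E x)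
    (hc : ∀ x ∈ c.S, col' (φ x) = col x) : vt col c E = vt col' c' E' := by
  obtain ⟨a, ha⟩ := exists_out' hg hcol hv
  rw [vt_eq hg hcol ha, vt_eq hg' hcol' (Iso.out ha hg hi hE hc), hE a ha.mem]

theorem iso_id (c : Cfg W) : Iso id c c where
  map := fun x hx => hx
  surj := fun y hy => ⟨y, hy, rfl⟩
  inj := fun x _ y _ h => h
  comm := fun b x _ => rfl
  cyc := fun x _ y _ z _ => Iff.rfl

theorem vt_congr {col col' : W → Bool} {c : Cfg W} {E : W → ℝ} {M : ℝ} (hg : c.Good)
    (hcol : ColOK col c) (hcol' : ColOK col' c) (hv : c.Valid E M)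
    (hc : ∀ x ∈ c.S, col' x = col x) : vt col c E = vt col' c E :=
  vt_iso hg hg hcol hcol' hv (iso_id c) (fun _ _ => rfl) hc

/-- two colourings agree or are complementary -/
theorem col_two {col col' : W → Bool} {c : Cfg W} (hg : c.Good) (hcol : ColOK col c)
    (hcol' : ColOK col' c) : (∀ x ∈ c.S, col' x = col x) ∨ (∀ x ∈ c.S, col' x = !col x) := by
  classical
  obtain ⟨x₀, hx₀⟩ := hg.nonem
  have key : ∀ (r : Bool), (col' x₀ = xor r (col x₀)) → ∀ x ∈ c.S, col' x = xor r (col x) := by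
    intro r hr
    have h1 : c.S.filter (fun x => col' x = xor r (col x)) = c.S := by
      refine hg.conn _ (Finset.filter_subset _ _) ⟨x₀, ?_⟩ ?_
      · rw [Finset.mem_filter]; exact ⟨hx₀, hr⟩
      · intro b x hx
        rw [Finset.mem_filter] at hx ⊢
        refine ⟨hg.mem b x hx.1, ?_⟩
        rw [hcol b x hx.1, hcol' b x hx.1, hx.2]
        cases r <;> cases col x <;> rfl
    intro x hx
    rw [← h1, Finset.mem_filter] at hx
    exact hx.2
  rcases hb : (col' x₀ == col x₀) with _ | _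
  · right
    intro x hx
    have := key true (by
      revert hb; cases col' x₀ <;> cases col x₀ <;> simp) x hx
    rw [this]; simp
  · left
    intro x hx
    have := key false (by
      revert hb; cases col' x₀ <;> cases col x₀ <;> simp) x hx
    rw [this]; simp

theorem ColOK.neg {col : W → Bool} {c : Cfg W} (h : ColOK col c) :
    ColOK (fun x => !col x) c := by
  intro b x hx
  show (!col (c.f b x)) = !(!col x)
  rw [h b x hx]

/-- a colouring after the deletion extends -/
theorem ColOK.extend {col : W → Bool} {c : Cfg W} (hg : c.Good) (hc : 2 < c.S.card) {b : Bool}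
    {x : W} (hx : x ∈ c.S) (h : ColOK col (c.del b x)) : ∃ col', ColOK col' c := by
  classical
  have hq := hg.mem b x hx
  have hP := hg.mem (!b) x hx
  have hQ := hg.mem (!b) _ hq
  have hpq := hg.ne b x hx
  have hPp := hg.ne (!b) x hx
  have hQq := hg.ne (!b) _ hq
  have hPq := hg.ne_other hc b hx
  have hinvP := hg.inv (!b) x hx
  have hinvQ := hg.inv (!b) _ hq
  have hinvx := hg.inv b x hx
  have hQp : c.f (!b) (c.f b x) ≠ x := by
    intro he; apply hPq; rw [← he, hinvQ, he]
  have hPmem : c.f (!b) x ∈ (c.del b x).S := Cfg.mem_del.2 ⟨hPq, hPp, hP⟩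
  have hPQ : col (c.f (!b) (c.f b x)) = !col (c.f (!b) x) := by
    have := h (!b) _ hPmem
    rw [Cfg.del_other, if_pos hinvP] at this
    exact this
  refine ⟨fun y => if y = x then !col (c.f (!b) x) else if y = c.f b x then col (c.f (!b) x)
    else col y, ?_⟩
  intro b' y hy
  show (if c.f b' y = x then !col (c.f (!b) x) else if c.f b' y = c.f b x then col (c.f (!b) x)
    else col (c.f b' y)) = !(if y = x then !col (c.f (!b) x) else
      if y = c.f b x then col (c.f (!b) x) else col y)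
  by_cases h1 : y = x
  · rw [if_pos h1, h1]
    rcases Cfg.bool_cases b b' with rfl | rfl
    · rw [if_neg hpq, if_pos rfl, Bool.not_not]
    · rw [if_neg hPp, if_neg hPq, Bool.not_not]
  by_cases h2 : y = c.f b x
  · rw [if_neg h1, if_pos h2, h2]
    rcases Cfg.bool_cases b b' with rfl | rfl
    · rw [if_pos hinvx]
    · rw [if_neg hQp, if_neg hQq, hPQ]
  rw [if_neg h1, if_neg h2]
  have hyd : y ∈ (c.del b x).S := Cfg.mem_del.2 ⟨h2, h1, hy⟩
  have hd := h b' y hyd
  rcases Cfg.bool_cases b b' with rfl | rfl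
  · rw [Cfg.del_same] at hd
    have h3 : c.f b' y ≠ x := by
      intro hh; apply h2; rw [← hh, hg.inv _ _ hy]
    have h4 : c.f b' y ≠ c.f b' x := by
      intro hh; exact h1 (hg.inj hy hx hh)
    rw [if_neg h3, if_neg h4, hd]
  · rw [Cfg.del_other] at hd
    by_cases h3 : c.f (!b) y = x
    · rw [if_pos h3] at hd ⊢
      rw [← hd, hPQ]
    · rw [if_neg h3] at hd ⊢
      by_cases h4 : c.f (!b) y = c.f b x
      · rw [if_pos h4] at hd ⊢
        exact hd
      · rw [if_neg h4] at hd ⊢
        exact hd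

/-- the selector: mean value of the phase at the two surviving points -/
noncomputable def selv (c : Cfg W) (E : W → ℝ) : ℝ := by
  classical
  exact if h : ∃ col : W → Bool, ColOK col c then
    (vt h.choose c E + vt (fun x => !h.choose x) c E) / 2 else 0

theorem selv_eq {col : W → Bool} {c : Cfg W} {E : W → ℝ} {M : ℝ} (hg : c.Good)
    (hcol : ColOK col c) (hv : c.Valid E M) :
    selv c E = (vt col c E + vt (fun x => !col x) c E) / 2 := by
  unfold selv
  have h : ∃ col : W → Bool, ColOK col c := ⟨col, hcol⟩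
  rw [dif_pos h]
  have hs := h.choose_spec
  rcases col_two hg hcol hs with h1 | h1
  · rw [vt_congr hg hcol hs hv h1,
      vt_congr hg (ColOK.neg hcol) (ColOK.neg hs) hv (fun x hx => by rw [h1 x hx])]
  · rw [vt_congr hg hcol (ColOK.neg hs) hv (fun x hx => by rw [h1 x hx, Bool.not_not]),
      vt_congr hg (ColOK.neg hcol) hs hv h1]
    ring

theorem exists_col : ∀ (n : ℕ) (c : Cfg W), c.S.card = n → c.Good → ∀ (E : W → ℝ) (M : ℝ),
    c.Valid E M → ∃ col : W → Bool, ColOK col c := by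
  classical
  intro n
  induction n using Nat.strong_induction_on with
  | _ n ih =>
    intro c hn hg E M hv
    rcases Nat.lt_or_ge 2 c.S.card with hc | hc
    · obtain ⟨b, x, hl, hv'⟩ := Cfg.exists_leaf hg hv
      have hcard := Cfg.card_del hg hl.1 (b := b)
      obtain ⟨col, hcol⟩ := ih (c.del b x).S.card (by omega) (c.del b x) rfl
        (Cfg.good_del hg hc hl) E _ (valid_dl hg hc hl hv')
      exact ColOK.extend hg hc hl.1 hcol
    · have h2 := two_le hg
      obtain ⟨x, hx⟩ := hg.nonem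
      have hS : ∀ y ∈ c.S, ∀ z ∈ c.S, y ≠ x → z ≠ x → y = z := by
        intro y hy z hz hyx hzx
        by_contra hyz
        have hsub : ({x, y, z} : Finset W) ⊆ c.S := by
          intro w hw
          simp only [Finset.mem_insert, Finset.mem_singleton] at hw
          rcases hw with rfl | rfl | rfl <;> assumption
        have h3 := Finset.card_le_card hsub
        rw [Finset.card_insert_of_notMem, Finset.card_pair hyz] at h3
        · omega
        · simp only [Finset.mem_insert, Finset.mem_singleton, not_or]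
          exact ⟨Ne.symm hyx, Ne.symm hzx⟩
      refine ⟨fun y => decide (y = x), ?_⟩
      intro b y hy
      show decide (c.f b y = x) = !decide (y = x)
      by_cases hyx : y = x
      · have : c.f b y ≠ x := by rw [hyx]; exact hg.ne b x hx
        rw [decide_eq_false this, decide_eq_true hyx]; rfl
      · have : c.f b y = x := by
          by_contra hne
          exact hg.ne b y hy (hS _ (hg.mem b y hy) _ hy hne hyx)
        rw [decide_eq_true this, decide_eq_false hyx]; rfl

theorem exists_col' {c : Cfg W} {E : W → ℝ} {M : ℝ} (hg : c.Good) (hv : c.Valid E M) :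
    ∃ col : W → Bool, ColOK col c := exists_col _ c rfl hg E M hv

/-! ### monotonicity -/

/-- the segment of phases -/
def sgm (E₀ E₁ : W → ℝ) (t : ℝ) : W → ℝ := fun x => (1 - t) * E₀ x + t * E₁ x

theorem dl_sgm (c : Cfg W) (E₀ E₁ : W → ℝ) (t : ℝ) (b : Bool) (x : W) :
    c.dl (sgm E₀ E₁ t) b x = (1 - t) * c.dl E₀ b x + t * c.dl E₁ b x := by
  unfold Cfg.dl sgm; ring

theorem valid_sgm {c : Cfg W} {E₀ E₁ : W → ℝ} {M₀ M₁ t : ℝ} (h0 : 0 ≤ t) (h1 : t ≤ 1)
    (hv₀ : c.Valid E₀ M₀) (hv₁ : c.Valid E₁ M₁) :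
    c.Valid (sgm E₀ E₁ t) ((1 - t) * M₀ + t * M₁) := by
  intro b T hT hPD
  have k0 := mul_le_mul_of_nonneg_left (hv₀ b T hT hPD) (sub_nonneg.2 h1)
  have k1 := mul_le_mul_of_nonneg_left (hv₁ b T hT hPD) h0
  have e : ∑ x ∈ T, ((1 - t) * M₀ + t * M₁ + c.dl (sgm E₀ E₁ t) b x) =
      (1 - t) * ∑ x ∈ T, (M₀ + c.dl E₀ b x) + t * ∑ x ∈ T, (M₁ + c.dl E₁ b x) := by
    rw [Finset.mul_sum, Finset.mul_sum, ← Finset.sum_add_distrib]
    apply Finset.sum_congr rfl
    intro x _
    rw [dl_sgm]; ring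
  rw [e]
  linarith

theorem isClosed_leaf {c : Cfg W} {E₀ E₁ : W → ℝ} (b : Bool) (x : W) :
    IsClosed {t : ℝ | c.Valid (sgm E₀ E₁ t) (-(c.dl (sgm E₀ E₁ t) b x))} := by
  have hc : ∀ b x, Continuous fun t : ℝ => c.dl (sgm E₀ E₁ t) b x := by
    intro b x
    simp only [dl_sgm]
    fun_prop
  have : {t : ℝ | c.Valid (sgm E₀ E₁ t) (-(c.dl (sgm E₀ E₁ t) b x))} =
      ⋂ (b' : Bool) (T : Finset W) (_ : T ⊆ c.S) (_ : PD (c.f b') T),
        {t : ℝ | ∑ y ∈ T, (-(c.dl (sgm E₀ E₁ t) b x) + c.dl (sgm E₀ E₁ t) b' y) ≤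
          2 * -(c.dl (sgm E₀ E₁ t) b x)} := by
    ext t
    simp only [Set.mem_iInter]
    exact Iff.rfl
  rw [this]
  refine isClosed_iInter fun b' => isClosed_iInter fun T => isClosed_iInter fun _ =>
    isClosed_iInter fun _ => ?_
  refine isClosed_le ?_ ?_
  · exact continuous_finsetSum _ fun y _ => ((hc b x).neg.add (hc b' y))
  · exact continuous_const.mul (hc b x).neg

theorem sgm_zero (E₀ E₁ : W → ℝ) : sgm E₀ E₁ 0 = E₀ := by
  funext x; unfold sgm; ring

theorem sgm_one (E₀ E₁ : W → ℝ) : sgm E₀ E₁ 1 = E₁ := by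
  funext x; unfold sgm; ring

theorem vt_mono {col : W → Bool} : ∀ (n : ℕ) (c : Cfg W), c.S.card = n → c.Good → ColOK col c →
    ∀ (E₀ E₁ : W → ℝ) (M₀ M₁ : ℝ), c.Valid E₀ M₀ → c.Valid E₁ M₁ → (∀ x ∈ c.S, E₀ x ≤ E₁ x) →
    vt col c E₀ ≤ vt col c E₁ := by
  intro n
  induction n using Nat.strong_induction_on with
  | _ n ih =>
    intro c hn hg hcol E₀ E₁ M₀ M₁ hv₀ hv₁ hle
    rcases Nat.lt_or_ge 2 c.S.card with hc | hc
    · -- closed cover
      let ι := {p : Bool × W // c.Leaf p.1 p.2}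
      haveI : Finite ι := by
        have hf : Finite {p : Bool × W // p ∈ (Finset.univ : Finset Bool) ×ˢ c.S} := inferInstance
        refine Finite.of_injective (β := {p : Bool × W // p ∈ (Finset.univ : Finset Bool) ×ˢ c.S})
          (fun p => ⟨p.1, by
            rw [Finset.mem_product]; exact ⟨Finset.mem_univ _, p.2.1⟩⟩) ?_
        intro p q hpq
        apply Subtype.ext
        exact congrArg (fun z => z.1) hpq
      let T : ι → Set ℝ := fun p =>
        {t : ℝ | c.Valid (sgm E₀ E₁ t) (-(c.dl (sgm E₀ E₁ t) p.1.1 p.1.2))}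
      have hvt : ∀ t ∈ Set.Icc (0 : ℝ) 1, c.Valid (sgm E₀ E₁ t) ((1 - t) * M₀ + t * M₁) :=
        fun t ht => valid_sgm ht.1 ht.2 hv₀ hv₁
      have key := Vale.Agent.P040.H457.mono_of_cover T (fun p => isClosed_leaf p.1.1 p.1.2)
        (by
          intro t ht
          obtain ⟨b, x, hl, hv⟩ := Cfg.exists_leaf hg (hvt t ht)
          exact ⟨⟨(b, x), hl⟩, hv⟩)
        (fun t => vt col c (sgm E₀ E₁ t))
        (by
          rintro ⟨⟨b, x⟩, hl'⟩ s hs t ht hsT htT hst
          have hl : c.Leaf b x := hl'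
          have hsT' : c.Valid (sgm E₀ E₁ s) (-(c.dl (sgm E₀ E₁ s) b x)) := hsT
          have htT' : c.Valid (sgm E₀ E₁ t) (-(c.dl (sgm E₀ E₁ t) b x)) := htT
          have es := vt_leaf hg hcol hsT' hc hl (by ring)
          have et := vt_leaf hg hcol htT' hc hl (by ring)
          show vt col c (sgm E₀ E₁ s) ≤ vt col c (sgm E₀ E₁ t)
          rw [← es, ← et]
          have hcard := Cfg.card_del hg hl.1 (b := b)
          refine ih (c.del b x).S.card (by omega) (c.del b x) rfl (Cfg.good_del hg hc hl)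
            (hcol.del hg b hl.1) _ _ _ _ (valid_dl hg hc hl hsT') (valid_dl hg hc hl htT') ?_
          intro y hy
          have := hle y (Cfg.mem_del.1 hy).2.2
          unfold sgm
          nlinarith)
      have k2 : vt col c (sgm E₀ E₁ 0) ≤ vt col c (sgm E₀ E₁ 1) := key
      rw [sgm_zero, sgm_one] at k2
      exact k2
    · have h2 := two_le hg
      obtain ⟨a, ha⟩ := exists_out' hg hcol hv₀
      have ha' : Out E₁ col c a := Out.base (by omega) ha.mem ha.col
      rw [vt_eq hg hcol ha, vt_eq hg hcol ha']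
      exact hle a ha.mem

theorem selv_mono {c : Cfg W} {E₀ E₁ : W → ℝ} {M₀ M₁ : ℝ} (hg : c.Good) (hv₀ : c.Valid E₀ M₀)
    (hv₁ : c.Valid E₁ M₁) (hle : ∀ x ∈ c.S, E₀ x ≤ E₁ x) : selv c E₀ ≤ selv c E₁ := by
  obtain ⟨col, hcol⟩ := exists_col' hg hv₀
  rw [selv_eq hg hcol hv₀, selv_eq hg hcol hv₁]
  have h1 := vt_mono _ c rfl hg hcol E₀ E₁ M₀ M₁ hv₀ hv₁ hle
  have h2 := vt_mono _ c rfl hg (ColOK.neg hcol) E₀ E₁ M₀ M₁ hv₀ hv₁ hle
  linarith

theorem iso_of_mono {c c' : Cfg W} {φ : W → W} (hφ : StrictMonoOn φ (c.S : Set W))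
    (h1 : ∀ x ∈ c.S, φ x ∈ c'.S) (h2 : ∀ y ∈ c'.S, ∃ x ∈ c.S, φ x = y)
    (h3 : ∀ b, ∀ x ∈ c.S, φ (c.f b x) = c'.f b (φ x)) : Iso φ c c' where
  map := h1
  surj := h2
  inj := fun x hx y hy h => hφ.injOn hx hy h
  comm := h3
  cyc := by
    intro x hx y hy z hz
    have e : ∀ a ∈ c.S, ∀ d ∈ c.S, (φ a < φ d ↔ a < d) := fun a ha d hd =>
      hφ.lt_iff_lt ha hd
    unfold Cyc
    rw [e x hx y hy, e y hy z hz, e z hz x hx]

/-- **The selector.** -/
noncomputable def selApi : SelApi W where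
  sel := selv
  iso := by
    intro c c' E E' M φ hg hg' hv hv' hφ h1 h2 h3 hE
    have hi := iso_of_mono hφ h1 h2 h3
    obtain ⟨col', hcol'⟩ := exists_col' hg' hv'
    have hcol : ColOK (fun x => col' (φ x)) c := by
      intro b x hx
      show col' (φ (c.f b x)) = !col' (φ x)
      rw [h3 b x hx]; exact hcol' b _ (h1 x hx)
    rw [selv_eq hg hcol hv, selv_eq hg' hcol' hv',
      vt_iso hg hg' hcol hcol' hv hi hE (fun _ _ => rfl),
      vt_iso hg hg' (ColOK.neg hcol) (ColOK.neg hcol') hv hi hE (fun _ _ => rfl)]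
  add := by
    intro c E M t hg hv
    obtain ⟨col, hcol⟩ := exists_col' hg hv
    rw [selv_eq hg hcol hv, selv_eq hg hcol (valid_add t hv), vt_add t hg hcol hv,
      vt_add t hg (ColOK.neg hcol) hv]
    ring
  leaf := by
    intro c E M b x hg hv hc hl h0
    have hv' := Cfg.valid_del hg hc hl hv h0
    have hg' := Cfg.good_del hg hc hl
    obtain ⟨col, hcol⟩ := exists_col' hg hv
    rw [selv_eq hg hcol hv, selv_eq hg' (hcol.del hg b hl.1) hv',
      vt_leaf hg hcol hv hc hl h0, vt_leaf hg (ColOK.neg hcol) hv hc hl h0]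
  mono := fun c E E' M M' hg hv hv' hle => selv_mono hg hv hv' hle

/-- invariance of the selector under isomorphisms that only preserve the cyclic order -/
theorem selApi_isoCyc {c c' : Cfg W} {E E' : W → ℝ} {M : ℝ} {φ : W → W} (hg : c.Good)
    (hg' : c'.Good) (hv : c.Valid E M) (hv' : c'.Valid E' M) (hi : Iso φ c c')
    (hE : ∀ x ∈ c.S, E' (φ x) = E x) :
    (selApi (W := W)).sel c E = (selApi (W := W)).sel c' E' := by
  show selv c E = selv c' E'
  obtain ⟨col', hcol'⟩ := exists_col' hg' hv'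
  have hcol : ColOK (fun x => col' (φ x)) c := by
    intro b x hx
    show col' (φ (c.f b x)) = !col' (φ x)
    rw [hi.comm b x hx]; exact hcol' b _ (hi.map x hx)
  rw [selv_eq hg hcol hv, selv_eq hg' hcol' hv',
    vt_iso hg hg' hcol hcol' hv hi hE (fun _ _ => rfl),
    vt_iso hg hg' (ColOK.neg hcol) (ColOK.neg hcol') hv hi hE (fun _ _ => rfl)]

end

end P040H251
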