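import Vale.Agent.P040.H251.Plus
import Vale.Agent.P040.H610.Rot
import Vale.Agent.P040.H610.Trans
import Vale.Agent.P040.H522.Finger

/-!
# The coloured selector: insertion, fingers, transport, rotation, reversal (P040, helper251)
-/

set_option linter.unusedSectionVars false
set_option linter.unusedVariables false

namespace P040H251

open Vale.Agent.P040.H906

section ins

variable {α : Type*} [LinearOrder α] [Inhabited α]
variable {D : Dat α} {s : Bool} {A B : List α} {P Q a a' : α} {E : α → ℝ}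

/-- **Insertion** does not change the value. -/
theorem VApi.ins_val (T : VApi α) (h : Crv D s (A ++ P :: Q :: B) E)
    (ha : a ∉ A ++ P :: Q :: B) (ha' : a' ∉ A ++ P :: Q :: B)
    (hN : Next (A ++ P :: Q :: B) P a a') (hlab : D.lab a = D.lab a') :
    T.val s (A ++ P :: a :: a' :: Q :: B) (insE D (pgk s A.length) P a a' E) =
      T.val s (A ++ P :: Q :: B) E := by
  have hne : a ≠ a' := by
    rcases hN with k | k
    · exact k.1.ne'
    · exact k.2.1.ne
  have h' := h.ins ha ha' hN hlab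
  set E' := insE D (pgk s A.length) P a a' E with hE'
  obtain ⟨e1, e2, e3, e4, e5, e6, e7, e8, e9, e10⟩ := ins_f (s := s) h.cl ha ha' hne
  have hPL : P ∈ A ++ P :: Q :: B := by simp
  have r1 : A ++ P :: a :: a' :: Q :: B = (A ++ [P]) ++ a :: a' :: (Q :: B) := by simp
  have r2 : A ++ P :: Q :: B = (A ++ [P]) ++ (Q :: B) := by simp
  have hEL : ∀ x ∈ A ++ P :: Q :: B, E' x = E x := fun x hx => insE_eq _ ha ha' hx
  have hcmp := fun x (hx : x ∈ A ++ P :: Q :: B) (hxP : x ≠ P) => hN.cmp ha ha' hx hxP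
  have hlen : 2 < (A ++ P :: a :: a' :: Q :: B).length := by
    simp only [List.length_append, List.length_cons]; omega
  have hg := h.good
  have hv := h.valid
  rw [r1] at h' e7 e8 hlen ⊢
  rw [r2] at hEL hcmp hg hv ha ha' hPL ⊢
  have hmem' : ∀ z ∈ (A ++ [P]) ++ a :: a' :: (Q :: B), z = a ∨ z = a' ∨
      z ∈ (A ++ [P]) ++ (Q :: B) := by
    intro x hx
    simp only [List.mem_append, List.mem_cons] at hx ⊢
    tauto
  have hgap : ∀ z ∈ (A ++ [P]) ++ a :: a' :: (Q :: B), ¬ (a < z ∧ z < a') ∧ ¬ (a' < z ∧ z < a) := by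
    intro z hz
    rcases hmem' z hz with rfl | rfl | hzL
    · exact ⟨fun hh => lt_irrefl _ hh.1, fun hh => lt_irrefl _ hh.2⟩
    · exact ⟨fun hh => lt_irrefl _ hh.2, fun hh => lt_irrefl _ hh.1⟩
    · by_cases hzP : z = P
      · rw [hzP]
        rcases hN with ⟨k1, k2, -⟩ | ⟨k1, k2, -⟩
        · exact ⟨fun hh => lt_asymm (hh.2.trans k1) k2, fun hh => lt_asymm hh.2 k2⟩
        · exact ⟨fun hh => lt_asymm hh.1 k1, fun hh => lt_asymm hh.1 (k1.trans k2)⟩
      · obtain ⟨x1, x2, x3, x4⟩ := hcmp z hzL hzP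
        exact ⟨fun hh => lt_asymm (x2.1 hh.1) (x3.1 hh.2), fun hh => lt_asymm (x4.1 hh.1) (x1.1 hh.2)⟩
  -- the left end of the bigon
  obtain ⟨x, hx, hlt, hlab', hleaf⟩ : ∃ x, (x = a ∨ x = a') ∧
      x < fO s ((A ++ [P]) ++ a :: a' :: (Q :: B)) (!pgk s A.length) x ∧
      D.lab (fO s ((A ++ [P]) ++ a :: a' :: (Q :: B)) (!pgk s A.length) x) = D.lab x ∧
      ∀ z ∈ (A ++ [P]) ++ a :: a' :: (Q :: B),
        ¬ (x < z ∧ z < fO s ((A ++ [P]) ++ a :: a' :: (Q :: B)) (!pgk s A.length) x) := by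
    rcases lt_or_gt_of_ne hne with hlt | hlt
    · exact ⟨a, Or.inl rfl, by rw [e7]; exact hlt, by rw [e7, hlab],
        fun z hz => by rw [e7]; exact (hgap z hz).1⟩
    · exact ⟨a', Or.inr rfl, by rw [e8]; exact hlt, by rw [e8, hlab],
        fun z hz => by rw [e8]; exact (hgap z hz).2⟩
  have hd := T.del_core h' hx e7 hlen hlt hlab' hleaf
  rw [← hd.2]
  rw [r2] at h
  exact T.congrE h hEL

end ins

section finger

open Vale.Agent.P040.Pst

/-- **G3** for doubled sub-stars: the finger of the arm `q` is empty, if the two copies of every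
point of `q` (also of the leaf) have the same label. -/
theorem VApi.dbl_finger {ι : Type*} (T : VApi ℝ) {D : Dat ℝ} {s : Bool} {ε : ℝ}
    {S₁ S₂ : List (ι × List ℝ)} {q : ι × List ℝ} {E : ℝ → ℝ}
    (hε : Sepd ε (pts (S₁ ++ q :: S₂))) (h0 : 0 < ε)
    (hlab : ∀ p ∈ q.2, D.lab (p - ε) = D.lab (p + ε))
    (hne : 0 < (dbl ε (S₁ ++ S₂)).length) (h : Crv D s (dbl ε (S₁ ++ q :: S₂)) E) :
    Crv D s (dbl ε (S₁ ++ S₂)) E ∧
      T.val s (dbl ε (S₁ ++ S₂)) E = T.val s (dbl ε (S₁ ++ q :: S₂)) E := by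
  have key : ∀ (l : List ℝ) (σ : ℝ), σ = ε ∨ σ = -ε → ∃ v : List (ℝ × ℝ),
      v.map Prod.fst = sh (-σ) l ∧ v.map Prod.snd = sh σ l ∧
      ∀ r ∈ v, ∃ p ∈ l, (r.1 = p - ε ∧ r.2 = p + ε) ∨ (r.1 = p + ε ∧ r.2 = p - ε) := by
    intro l
    induction l with
    | nil => intro σ _; exact ⟨[], rfl, rfl, by simp⟩
    | cons a t ih =>
      intro σ hσ
      obtain ⟨v, h1, h2, h3⟩ := ih (-σ) (by
        rcases hσ with rfl | rfl
        · exact Or.inr rfl
        · exact Or.inl (neg_neg _))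
      refine ⟨(a - σ, a + σ) :: v, ?_, ?_, ?_⟩
      · rw [List.map_cons, h1, sh_cons, sub_eq_add_neg]
      · rw [List.map_cons, h2, sh_cons]
      · intro r hr
        rcases List.mem_cons.1 hr with rfl | hr
        · refine ⟨a, by simp, ?_⟩
          rcases hσ with rfl | rfl
          · exact Or.inl ⟨rfl, rfl⟩
          · exact Or.inr ⟨by simp, by simp [sub_eq_add_neg]⟩
        · obtain ⟨p, hp, hh⟩ := h3 r hr
          exact ⟨p, List.mem_cons_of_mem _ hp, hh⟩
  obtain ⟨v, h1, h2, h3⟩ := key q.2 ε (Or.inl rfl)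
  have e : dbl ε (S₁ ++ q :: S₂) =
      dbl ε S₁ ++ (v.map Prod.fst ++ (v.map Prod.snd).reverse) ++ dbl ε S₂ := by
    rw [dbl_append, dbl_cons, h1, h2]
    simp
  have e' : dbl ε (S₁ ++ S₂) = dbl ε S₁ ++ dbl ε S₂ := dbl_append ε S₁ S₂
  have hT : ∀ r ∈ S₁ ++ q :: S₂, r ∈ S₁ ++ q :: S₂ := fun r hr => hr
  have hgap : ∀ r ∈ v, ∀ z ∈ dbl ε (S₁ ++ q :: S₂), ¬ (min r.1 r.2 < z ∧ z < max r.1 r.2) := by
    intro r hr z hz
    obtain ⟨p, hp, hh⟩ := h3 r hr
    have hp' : p ∈ pts (S₁ ++ q :: S₂) := List.mem_flatMap.2 ⟨q, by simp, hp⟩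
    have hg := dbl_gap hε h0 hT hp' hz
    have hle : p - ε ≤ p + ε := by linarith
    rcases hh with ⟨g1, g2⟩ | ⟨g1, g2⟩
    · rw [g1, g2, min_eq_left hle, max_eq_right hle]; exact hg
    · rw [g1, g2, min_eq_right hle, max_eq_left hle]; exact hg
  have hlab' : ∀ r ∈ v, D.lab r.1 = D.lab r.2 := by
    intro r hr
    obtain ⟨p, hp, hh⟩ := h3 r hr
    rcases hh with ⟨g1, g2⟩ | ⟨g1, g2⟩
    · rw [g1, g2]; exact hlab p hp
    · rw [g1, g2]; exact (hlab p hp).symm
  rw [e'] at hne ⊢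
  rw [e] at h hgap ⊢
  exact T.del_finger hne v hlab' hgap h

end finger

section trans

open Vale.Agent.P040.ToCrv

variable {s : Bool} {L : List ℝ} {φ : ℝ → ℝ}

theorem VApi.val_map (T : VApi ℝ) {D D' : Dat ℝ} {E E' : ℝ → ℝ} {w : ℝ → Bool} (h : Crv D s L E)
    (h' : Crv D' s (L.map φ) E') (hM : D'.M = D.M) (hc : Cut L φ w)
    (hE : ∀ x ∈ L, E' (φ x) = E x) :
    T.val s (L.map φ) E' = T.val s L E := by
  symm
  refine T.iso (upc s L) (upc s (L.map φ)) (cfg s L) (cfg s (L.map φ)) E E' D.M φ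
    (colOK_upc h.cl s) (colOK_upc h'.cl s) h.good h'.good h.valid ?_ ?_ ?_ ?_
  · have := h'.valid
    rwa [hM] at this
  · refine ⟨?_, ?_, ?_, ?_, ?_⟩
    · intro x hx
      simp only [cfg_S, List.mem_toFinset] at hx ⊢
      exact List.mem_map_of_mem hx
    · intro y hy
      simp only [cfg_S, List.mem_toFinset, List.mem_map] at hy ⊢
      exact hy
    · intro x hx y hy
      simp only [cfg_S, List.mem_toFinset] at hx hy
      exact hc.inj x hx y hy
    · intro b x hx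
      simp only [cfg_S, List.mem_toFinset] at hx
      exact (fO_map h.cl hc.inj b hx).symm
    · intro x hx y hy z hz
      simp only [cfg_S, List.mem_toFinset] at hx hy hz
      exact (hc.cyc hx hy hz).symm
  · intro x hx
    simp only [cfg_S, List.mem_toFinset] at hx
    exact hE x hx
  · intro x hx
    simp only [cfg_S, List.mem_toFinset] at hx
    obtain ⟨i, hi, rfl⟩ := ex_idx hx
    rw [← g_map (φ := φ) hi, upc_g h'.cl.nodup (by simpa using hi), upc_g h.cl.nodup hi]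

/-- **The class theorem for curves with different labelled positions.** -/
theorem VApi.class_eq' (T : VApi ℝ) {s : Bool} {D₁ D₂ : Dat ℝ} {L₁ L₂ : List ℝ} {E₁ E₂ : ℝ → ℝ} (hC : D₁.C = D₂.C)
    (hM : D₁.M = D₂.M) (h₁ : Crv D₁ s L₁ E₁) (h₂ : Crv D₂ s L₂ E₂)
    (u₁ : ∀ x ∈ L₁, x ≠ g L₁ 0 → D₁.lab x ≠ D₁.lab (g L₁ 0))
    (u₂ : ∀ x ∈ L₂, x ≠ g L₂ 0 → D₂.lab x ≠ D₂.lab (g L₂ 0))
    (hw : wd D₁ s L₁ = wd D₂ s L₂) :
    T.val s L₁ E₁ - E₁ (g L₁ 0) =
      T.val s L₂ E₂ - E₂ (g L₂ 0) := by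
  -- one curve
  have key : ∀ (D : Dat ℝ) (L : List ℝ) (E : ℝ → ℝ), Crv D s L E →
      (∀ x ∈ L, x ≠ g L 0 → D.lab x ≠ D.lab (g L 0)) →
      ∃ (L' : List ℝ) (E' : ℝ → ℝ), Crv (flr D) s L' E' ∧
        (∀ x ∈ L', x ≠ g L' 0 → (flr D).lab x ≠ (flr D).lab (g L' 0)) ∧
        wd (flr D) s L' = wd D s L ∧
        T.val s L' E' - E' (g L' 0) =
          T.val s L E - E (g L 0) := by
    intro D L E h u
    have hinj := (emb_strictMono D).injective
    obtain ⟨ψ, hψ⟩ := hinj.hasLeftInverse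
    have hE : ∀ x ∈ L, (fun y => E (ψ y)) (emb D x) = E x := by
      intro x _
      show E (ψ (emb D x)) = E x
      rw [hψ x]
    have hcr : Crv (flr D) s (L.map (emb D)) (fun y => E (ψ y)) := by
      refine crv_map h rfl (cut_emb D L) (fun _ => 0) ?_ hE
      intro b x _
      show D.C b ⌊emb D x⌋₊ = _
      rw [floor_emb]
      simp
    have hp := h.cl.pos
    have h0 : g (L.map (emb D)) 0 = emb D (g L 0) := g_map hp
    refine ⟨L.map (emb D), fun y => E (ψ y), hcr, ?_, ?_, ?_⟩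
    · intro x hx
      rw [List.mem_map] at hx
      obtain ⟨x, hx, rfl⟩ := hx
      rw [h0]
      intro hne
      show ⌊emb D x⌋₊ ≠ ⌊emb D (g L 0)⌋₊
      rw [floor_emb, floor_emb]
      exact u x hx fun e => hne (by rw [e])
    · unfold P040H251.wd
      rw [wl_map_lab D.lab (flr D).lab s L (emb D) fun x _ => floor_emb D x]
    · rw [T.val_map h hcr rfl (cut_emb D L) hE, h0]
      show _ - E (ψ (emb D (g L 0))) = _
      rw [hψ]
  obtain ⟨M₁, F₁, a1, a2, a3, a4⟩ := key D₁ L₁ E₁ h₁ u₁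
  obtain ⟨M₂, F₂, b1, b2, b3, b4⟩ := key D₂ L₂ E₂ h₂ u₂
  have e : flr D₁ = flr D₂ := by
    unfold flr
    congr 1
  rw [← a4, ← b4]
  rw [e] at a1 a2 a3
  exact T.class_eq a1 b1 a2 b2 (by rw [a3, b3, hw])

end trans

section rot

open Vale.Agent.P040.ToCrv

variable {s : Bool} {L : List ℝ}

theorem upc_rot (h : CL L) {x : ℝ} (hx : x ∈ L) : upc (!s) (L.rotate 1) x = upc s L x := by
  have hx' : x ∈ L.rotate 1 := List.mem_rotate.2 hx
  obtain ⟨i, hi, rfl⟩ := ex_idx hx'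
  rw [List.length_rotate] at hi
  have hne : L ≠ [] := by
    have := h.pos
    rintro rfl
    simp at this
  rw [upc_g (cl_rot h 1).nodup (by rwa [List.length_rotate])]
  have hev := h.even
  by_cases hc : i + 1 = L.length
  · have e : i = L.length - 1 := by omega
    rw [e, g_rot_last hne, upc_g h.nodup h.pos, pgk_not]
    rw [pgk_flip (s := s) (i := L.length - 1) (j := 0) (by omega), Bool.not_not]
  · rw [g_rot_lt (by omega), upc_g h.nodup (by omega), pgk_not, pgk_succ]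

theorem VApi.val_rot (T : VApi ℝ) {D : Dat ℝ} {E : ℝ → ℝ} (h : Crv D s L E) :
    T.val (!s) (L.rotate 1) E = T.val s L E :=
  T.congr (agree_rot h.cl) (colOK_upc h.cl s) h.good h.valid
    (fun x hx => upc_rot h.cl (List.mem_toFinset.1 hx)) (fun _ _ => rfl)

/-- rotation by an odd number of points -/
theorem VApi.crv_rot_odd (T : VApi ℝ) {D : Dat ℝ} {E : ℝ → ℝ} (h : Crv D s L E) {k : ℕ}
    (hk : Odd k) :
    Crv D (!s) (L.rotate k) E ∧ T.val (!s) (L.rotate k) E = T.val s L E := by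
  obtain ⟨m, rfl⟩ := hk
  induction m with
  | zero => exact ⟨crv_rot h, T.val_rot h⟩
  | succ m ih =>
    have e : L.rotate (2 * (m + 1) + 1) = ((L.rotate (2 * m + 1)).rotate 1).rotate 1 := by
      rw [List.rotate_rotate, List.rotate_rotate]
      congr 1
    rw [e]
    have h1 := crv_rot ih.1
    have h2 := crv_rot h1
    rw [Bool.not_not] at h2
    refine ⟨h2, ?_⟩
    have e1 := T.val_rot ih.1
    have e2 := T.val_rot h1
    rw [Bool.not_not] at e2
    rw [e2, e1, ih.2]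

/-- rotation by an even number of points -/
theorem VApi.crv_rot_even (T : VApi ℝ) {D : Dat ℝ} {E : ℝ → ℝ} (h : Crv D s L E) {k : ℕ}
    (hk : Even k) :
    Crv D s (L.rotate k) E ∧ T.val s (L.rotate k) E = T.val s L E := by
  rcases Nat.eq_zero_or_pos k with rfl | hpos
  · rw [List.rotate_zero]
    exact ⟨h, rfl⟩
  · obtain ⟨m, rfl⟩ : ∃ m, k = m + 1 := ⟨k - 1, by omega⟩
    have hodd : Odd m := by
      rcases Nat.even_or_odd m with he | ho
      · exact absurd he (by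
          have := Nat.even_add_one.1 hk
          exact this)
      · exact ho
    obtain ⟨h1, h2⟩ := T.crv_rot_odd h hodd
    have h3 := crv_rot h1
    have h4 := T.val_rot h1
    rw [Bool.not_not, List.rotate_rotate] at h3 h4
    exact ⟨h3, h4.trans h2⟩

end rot

end P040H251
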