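import Vale.Agent.P040.H682.OData
import Vale.Agent.P040.H251.Plus2

/-!
# P040, odd layer: the spine cut at the leaf, uniqueness of the values (helper251)

For every selector `T` (mean, plus or minus). The spine is cut between the inner and the outer
half of the leaf `z`; the point `r` gets its own label. The word after the cut depends only on
`R`, and the value is a function of this word (`VApi.class_eq`).
-/

set_option autoImplicit false

namespace P040H251

open Vale.Agent.P040 Vale.Agent.P040.H906 Vale.Agent.P040.ToCrv Vale.Agent.P040.H682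

namespace OU

variable {h : ℕ} (P : OData h)

/-- the cumulative masses when the spine is cut at the leaf `z` -/
noncomputable def cz (z : Fin (2 * h + 1)) (b : Bool) (j : ℕ) : ℝ :=
  if j = 0 then 0
  else if P.rk (P.pos z) + j ≤ 2 * h + 1 then
    P.cum b (P.rk (P.pos z) + j) - P.cum b (P.rk (P.pos z)) - P.nin z b
  else P.cum b (min (P.rk (P.pos z) + j - (2 * h + 1)) (P.rk (P.pos z))) + (h + 1 / 2) -
    P.cum b (P.rk (P.pos z)) - P.nin z b

theorem cum_nin_le (z : Fin (2 * h + 1)) (b : Bool) {j : ℕ} (hj : 1 ≤ j) :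
    P.cum b (P.rk (P.pos z)) + P.nin z b ≤ P.cum b (P.rk (P.pos z) + j) := by
  have h1 := P.cum_succ b z
  have h2 := P.nin_le z b
  have h3 : P.cum b (P.rk (P.pos z) + 1) ≤ P.cum b (P.rk (P.pos z) + j) :=
    P.cum_mono b (by omega)
  linarith

theorem cz_nonneg (z : Fin (2 * h + 1)) (b : Bool) (j : ℕ) : 0 ≤ cz P z b j := by
  unfold cz
  split_ifs with h0 hc
  · exact le_rfl
  · have := cum_nin_le P z b (j := j) (by omega)
    linarith
  · have h1 := cum_nin_le P z b (j := 1) le_rfl
    have h2 := P.cum_le b (P.rk (P.pos z) + 1)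
    have h3 := P.cum_nonneg b (min (P.rk (P.pos z) + j - (2 * h + 1)) (P.rk (P.pos z)))
    linarith

theorem cz_le (z : Fin (2 * h + 1)) (b : Bool) (j : ℕ) : cz P z b j ≤ h + 1 / 2 := by
  unfold cz
  have hn := P.nin_nonneg z b
  split_ifs with h0 hc
  · positivity
  · have h1 := P.cum_le b (P.rk (P.pos z) + j)
    have h2 := P.cum_nonneg b (P.rk (P.pos z))
    linarith
  · have h1 := P.cum_mono b (min_le_right (P.rk (P.pos z) + j - (2 * h + 1)) (P.rk (P.pos z)))
    linarith

theorem cz_mono (z : Fin (2 * h + 1)) (b : Bool) : Monotone (cz P z b) := by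
  intro j k hjk
  by_cases hj : j = 0
  · have h1 : cz P z b j = 0 := by unfold cz; rw [if_pos hj]
    rw [h1]
    exact cz_nonneg P z b k
  · unfold cz
    rw [if_neg hj, if_neg (show ¬ k = 0 by omega)]
    split_ifs with h1 h2 h2
    · have := P.cum_mono b (show P.rk (P.pos z) + j ≤ P.rk (P.pos z) + k by omega)
      linarith
    · have h3 := P.cum_le b (P.rk (P.pos z) + j)
      have h4 := P.cum_nonneg b (min (P.rk (P.pos z) + k - (2 * h + 1)) (P.rk (P.pos z)))
      linarith
    · omega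
    · have := P.cum_mono b (show min (P.rk (P.pos z) + j - (2 * h + 1)) (P.rk (P.pos z)) ≤
        min (P.rk (P.pos z) + k - (2 * h + 1)) (P.rk (P.pos z)) by omega)
      linarith

/-- the data of the spine cut at the leaf `z` -/
noncomputable def DZ (z : Fin (2 * h + 1)) : Dat ℝ where
  lab := fun x => ⌊x⌋₊
  mono := Nat.floor_mono
  C := cz P z
  Cmono := cz_mono P z
  M := ((h : ℝ) + 1 / 2) / 2
  pos := by positivity
  tot := fun b j k => by
    have h1 := cz_le P z b k
    have h2 := cz_nonneg P z b j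
    linarith

/-- the labels of the points of a curve with the marked point `r`; `l` is left of the leaf -/
noncomputable def lam (z : Fin (2 * h + 1)) (r l x : ℝ) : ℕ :=
  if x ≤ l then 2 * h + 1 - P.rk (P.pos z) + P.rk x else if x = r then 0
  else P.rk x - P.rk (P.pos z)

/-- the cut -/
noncomputable def phi (z : Fin (2 * h + 1)) (r l x : ℝ) : ℝ :=
  lam P z r l x + (if x ≤ l then (1 + ToCrv.sq x) / 2 else ToCrv.sq x / 2)

theorem floor_phi (z : Fin (2 * h + 1)) (r l x : ℝ) : ⌊phi P z r l x⌋₊ = lam P z r l x := by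
  have h1 := sq_pos x
  have h2 := sq_lt_one x
  unfold phi
  rw [Nat.floor_eq_iff (by split_ifs <;> positivity)]
  constructor
  · split_ifs <;> linarith
  · split_ifs <;> linarith

/-- the letters after the cut -/
def jz (h i k : ℕ) : ℕ := if i + 1 ≤ k then k - i else 2 * h + 1 - i + k

/-- the homomorphism to the letters after the cut -/
def psi (h i : ℕ) : FreeGroup ℕ →* FreeGroup ℕ :=
  FreeGroup.lift fun k => (FreeGroup.of (jz h i k))⁻¹

theorem mk_wl {lab : ℝ → ℕ} {i : ℕ} (M : List ℝ) (t : Bool)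
    (hM : ∀ x ∈ M, lab x = jz h i (P.G0.gap x)) :
    FreeGroup.mk (wl lab t M) = psi h i (Pst.wd P.G0 (!t) M) := by
  induction M generalizing t with
  | nil => show FreeGroup.mk [] = psi h i 1; rw [map_one]; rfl
  | cons x M ih =>
    have h1 : FreeGroup.mk (wl lab t (x :: M)) =
        FreeGroup.mk [(lab x, t)] * FreeGroup.mk (wl lab (!t) M) := by
      rw [FreeGroup.mul_mk]; rfl
    have h2 : Pst.wd P.G0 (!t) (x :: M) = Pst.cl (!t) (P.G0.gap x) * Pst.wd P.G0 (!!t) M := rfl
    rw [h1, h2, map_mul, ih (!t) fun y hy => hM y (List.mem_cons_of_mem _ hy), hM x (by simp)]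
    congr 1
    cases t
    · show _ = psi h i (FreeGroup.of _)
      unfold psi
      rw [FreeGroup.lift_apply_of, FreeGroup.of, FreeGroup.inv_mk]
      rfl
    · show _ = psi h i (FreeGroup.of _)⁻¹
      unfold psi
      rw [map_inv, FreeGroup.lift_apply_of, inv_inv]
      rfl

variable {P}
variable {z : Fin (2 * h + 1)} {t r l : ℝ} {L : List ℝ} {E : ℝ → ℝ}

/-- the points of the curve: left of the leaf, the point `r`, right of the cut -/
theorem cases' (hF : P.Fat z t r l L) {x : ℝ} (hx : x ∈ r :: L) :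
    (x ≤ l ∧ P.rk x ≤ P.rk (P.pos z) ∧ (P.DC z t).lab x = P.rk x ∧
      lam P z r l x = 2 * h + 1 - P.rk (P.pos z) + P.rk x) ∨
    (x = r ∧ (P.DC z t).lab x = P.rk (P.pos z) + 1 ∧ lam P z r l x = 0) ∨
    (t < x ∧ P.rk (P.pos z) + 1 ≤ P.rk x ∧ P.rk x ≤ 2 * h + 1 ∧
      (P.DC z t).lab x = P.rk x + 1 ∧ lam P z r l x = P.rk x - P.rk (P.pos z)) := by
  have hlr : l < r := hF.lz.trans hF.zr
  have key : x ≤ l ∨ x = r ∨ t < x := by
    rcases List.mem_cons.1 hx with rfl | hx
    · exact Or.inr (Or.inl rfl)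
    · have h1 := hF.emp x hx
      rcases le_or_gt x l with h2 | h2
      · exact Or.inl h2
      · right; right
        by_contra h3
        exact h1 ⟨h2, not_lt.1 h3⟩
  rcases key with hc | hc | hc
  · left
    have h1 : ¬ t < x := not_lt.2 (hc.trans (hlr.trans hF.rt).le)
    refine ⟨hc, ?_, ?_, ?_⟩
    · rw [← hF.rkl]; exact P.rk_mono hc
    · show P.rk x + (if t < x then 1 else 0) = _
      rw [if_neg h1]; rfl
    · unfold lam; rw [if_pos hc]
  · right; left
    have h1 : ¬ t < x := by rw [hc]; exact not_lt.2 hF.rt.le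
    refine ⟨hc, ?_, ?_⟩
    · show P.rk x + (if t < x then 1 else 0) = _
      rw [if_neg h1, hc, hF.rkr]
    · unfold lam; rw [if_neg (by rw [hc]; exact not_le.2 hlr), if_pos hc]
  · right; right
    refine ⟨hc, ?_, P.rk_le x, ?_, ?_⟩
    · rw [← hF.rkt]; exact P.rk_mono hc.le
    · show P.rk x + (if t < x then 1 else 0) = _
      rw [if_pos hc]
    · unfold lam
      rw [if_neg (not_le.2 ((hlr.trans hF.rt).trans hc)), if_neg (hF.rt.trans hc).ne']

theorem cut (hF : P.Fat z t r l L) :
    Cut (r :: L) (phi P z r l) (fun x => decide (x ≤ l)) := by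
  have hrl : l < r := hF.lz.trans hF.zr
  have hrt : r < t := hF.rt
  have hi := P.rk_pos_lt z
  have hcases := fun x (hx : x ∈ r :: L) => cases' hF hx
  have hrk := P.rk_mono
  have lt_of_lam : ∀ {a b : ℝ}, lam P z r l a < lam P z r l b →
      phi P z r l a < phi P z r l b := by
    intro a b hab
    have h1 : (lam P z r l a : ℝ) + 1 ≤ lam P z r l b := by exact_mod_cast hab
    have a2 := sq_lt_one a
    have a1 := sq_pos a
    have b1 := sq_pos b
    unfold phi
    split_ifs <;> linarith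
  have le_case : ∀ {a b : ℝ}, lam P z r l a ≤ lam P z r l b →
      (if a ≤ l then (1 + ToCrv.sq a) / 2 else ToCrv.sq a / 2) <
        (if b ≤ l then (1 + ToCrv.sq b) / 2 else ToCrv.sq b / 2) →
      phi P z r l a < phi P z r l b := by
    intro a b hab hs
    have h1 : (lam P z r l a : ℝ) ≤ lam P z r l b := by exact_mod_cast hab
    unfold phi
    linarith
  have fwd : ∀ x ∈ r :: L, ∀ y ∈ r :: L,
      ((x ≤ l ↔ y ≤ l) ∧ x < y) ∨ (¬ x ≤ l ∧ y ≤ l) →
      phi P z r l x < phi P z r l y := by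
    intro x hx y hy hxy
    have hx' := hcases x hx
    have hy' := hcases y hy
    rcases hxy with ⟨hw, hlt⟩ | ⟨hwx, hwy⟩
    · by_cases hxl : x ≤ l
      · have hyl := hw.1 hxl
        have h1 := hrk hlt.le
        refine le_case ?_ ?_
        · rcases hx' with ⟨-, -, -, h2⟩ | ⟨h2, -⟩ | ⟨h2, -⟩
          · rcases hy' with ⟨-, -, -, h3⟩ | ⟨h3, -⟩ | ⟨h3, -⟩
            · rw [h2, h3]; omega
            · linarith
            · linarith
          · linarith
          · linarith
        · rw [if_pos hxl, if_pos hyl]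
          linarith [sq_mono hlt]
      · have hyl : ¬ y ≤ l := fun hh => hxl (hw.2 hh)
        have h1 := hrk hlt.le
        rcases hx' with ⟨h2, -⟩ | ⟨h2, -, h2'⟩ | ⟨h2, h2a, h2b, -, h2'⟩
        · exact absurd h2 hxl
        · rcases hy' with ⟨h3, -⟩ | ⟨h3, -, h3'⟩ | ⟨h3, h3a, h3b, -, h3'⟩
          · exact absurd h3 hyl
          · linarith
          · exact lt_of_lam (by rw [h2', h3']; omega)
        · rcases hy' with ⟨h3, -⟩ | ⟨h3, -, h3'⟩ | ⟨h3, h3a, h3b, -, h3'⟩
          · exact absurd h3 hyl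
          · linarith
          · refine le_case (by rw [h2', h3']; omega) ?_
            rw [if_neg hxl, if_neg hyl]
            linarith [sq_mono hlt]
    · refine le_case ?_ ?_
      · rcases hy' with ⟨-, -, -, h3⟩ | ⟨h3, -⟩ | ⟨h3, -⟩
        · rw [h3]
          rcases hx' with ⟨h2, -⟩ | ⟨h2, -, h2'⟩ | ⟨h2, h2a, h2b, -, h2'⟩
          · exact absurd h2 hwx
          · rw [h2']; omega
          · rw [h2']; omega
        · linarith
        · linarith
      · rw [if_neg hwx, if_pos hwy]
        have x2 := sq_lt_one x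
        have y1 := sq_pos y
        linarith
  constructor
  · intro x hx y hy
    have h1 := fwd x hx y hy
    have h2 := fwd y hy x hx
    constructor
    · intro hlt
      by_cases hxl : x ≤ l <;> by_cases hyl : y ≤ l
      · left
        refine ⟨by simp [hxl, hyl], ?_⟩
        rcases lt_trichotomy x y with h3 | h3 | h3
        · exact h3
        · rw [h3] at hlt; exact absurd hlt (lt_irrefl _)
        · exact absurd (h2 (Or.inl ⟨by simp [hxl, hyl], h3⟩)) hlt.not_gt
      · exact absurd (h2 (Or.inr ⟨hyl, hxl⟩)) hlt.not_gt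
      · right
        exact ⟨decide_eq_false hxl, decide_eq_true hyl⟩
      · left
        refine ⟨by rw [decide_eq_decide]; exact ⟨fun k => absurd k hxl, fun k => absurd k hyl⟩, ?_⟩
        rcases lt_trichotomy x y with h3 | h3 | h3
        · exact h3
        · rw [h3] at hlt; exact absurd hlt (lt_irrefl _)
        · exact absurd (h2 (Or.inl ⟨by simp [hxl, hyl], h3⟩)) hlt.not_gt
    · rintro (⟨h3, h4⟩ | ⟨h3, h4⟩)
      · refine h1 (Or.inl ⟨?_, h4⟩)
        rwa [decide_eq_decide] at h3
      · exact h1 (Or.inr ⟨by simpa using h3, by simpa using h4⟩)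
  · intro x hx y hy hwx hwy
    simp only [decide_eq_true_eq, decide_eq_false_iff_not] at hwx hwy
    exact lt_of_le_of_lt hwx (not_le.1 hwy)

theorem not_dec {x : ℝ} (h : l < x) : decide (x ≤ l) = false := by
  simp [h]

/-- the curve after the cut -/
theorem crvZ (hC : Crv (P.DC z t) true (r :: L) E) (hF : P.Fat z t r l L) {E' : ℝ → ℝ}
    (hE : ∀ x ∈ r :: L, E' (phi P z r l x) = E x) :
    Crv (DZ P z) true ((r :: L).map (phi P z r l)) E' := by
  refine crv_map hC rfl (cut hF) (fun b => - (P.cum b (P.rk (P.pos z)) + P.nin z b)) ?_ hE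
  intro b x hx
  have hx' := cases' hF hx
  have hi := P.rk_pos_lt z
  have hlr : l < r := hF.lz.trans hF.zr
  have hrt : r < t := hF.rt
  show cz P z b ⌊phi P z r l x⌋₊ = P.cc z b ((P.DC z t).lab x) + _ + _
  have hM2 : 2 * (P.DC z t).M = (h : ℝ) + 1 / 2 := by
    show 2 * (((h : ℝ) + 1 / 2) / 2) = (h : ℝ) + 1 / 2
    ring
  rw [floor_phi, hM2]
  rcases hx' with ⟨h2, h2a, h2b, h2'⟩ | ⟨h2, h2b, h2'⟩ | ⟨h2, h2a, h2c, h2b, h2'⟩
  · rw [h2', h2b, show decide (x ≤ l) = true by simpa using h2, if_pos rfl]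
    unfold cz OData.cc
    rw [if_neg (by omega), if_pos h2a]
    by_cases h0 : P.rk x = 0
    · rw [if_pos (by omega), h0, show P.rk (P.pos z) + (2 * h + 1 - P.rk (P.pos z) + 0) =
        2 * h + 1 by omega, P.cum_top, P.cum_zero]
      ring
    · rw [if_neg (by omega), show P.rk (P.pos z) + (2 * h + 1 - P.rk (P.pos z) + P.rk x) -
        (2 * h + 1) = P.rk x by omega, min_eq_left h2a]
      ring
  · rw [h2', h2b, not_dec (by rw [h2]; exact hlr), if_neg (by simp)]
    unfold cz OData.cc
    rw [if_pos rfl, if_neg (by omega), if_pos rfl]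
    ring
  · rw [h2', h2b, not_dec ((hlr.trans hrt).trans h2), if_neg (by simp)]
    unfold cz OData.cc
    rw [if_neg (by omega), if_pos (by omega), if_neg (by omega), if_neg (by omega),
      show P.rk (P.pos z) + (P.rk x - P.rk (P.pos z)) = P.rk x by omega,
      show P.rk x + 1 - 1 = P.rk x by omega]
    ring

theorem lam_r (hF : P.Fat z t r l L) : lam P z r l r = 0 := by
  unfold lam
  rw [if_neg (not_le.2 (hF.lz.trans hF.zr)), if_pos rfl]

theorem lab_ne (hF : P.Fat z t r l L) {x : ℝ} (hx : x ∈ r :: L) (hxr : x ≠ r) :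
    lam P z r l x ≠ lam P z r l r := by
  rw [lam_r hF]
  have hi := P.rk_pos_lt z
  rcases cases' hF hx with ⟨-, -, -, h2⟩ | ⟨h2, -⟩ | ⟨-, h2, -, -, h3⟩
  · rw [h2]; omega
  · exact absurd h2 hxr
  · rw [h3]; omega

theorem gapZ (hF : P.Fat z t r l L) {x : ℝ} (hx : x ∈ L) (hxr : x ≠ r) :
    lam P z r l x = jz h (P.rk (P.pos z)) (P.G0.gap x) := by
  have hi := P.rk_pos_lt z
  show _ = jz h _ (P.rk x % (2 * h + 1))
  rcases cases' hF (List.mem_cons_of_mem _ hx) with
    ⟨h2, h2a, h2b, h2'⟩ | ⟨h2, -⟩ | ⟨h2, h2a, h2c, h2b, h2'⟩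
  · rw [h2', Nat.mod_eq_of_lt (by omega)]
    unfold jz
    rw [if_neg (by omega)]
  · exact absurd h2 hxr
  · rw [h2']
    rcases Nat.lt_or_ge (P.rk x) (2 * h + 1) with h3 | h3
    · rw [Nat.mod_eq_of_lt h3]
      unfold jz
      rw [if_pos h2a]
    · have h4 : P.rk x = 2 * h + 1 := le_antisymm h2c h3
      rw [h4, Nat.mod_self]
      unfold jz
      rw [if_neg (by omega)]
      omega

/-- the word after the cut -/
theorem wordZ (hC : Crv (P.DC z t) true (r :: L) E) (hF : P.Fat z t r l L) :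
    P040H251.wd (DZ P z) true ((r :: L).map (phi P z r l)) =
      FreeGroup.mk [(0, true)] * psi h (P.rk (P.pos z)) (Pst.wd P.G0 true L) := by
  unfold P040H251.wd
  rw [wl_map_lab (lam P z r l) (DZ P z).lab true _ _ (fun x _ => floor_phi P z r l x)]
  have h1 : wl (lam P z r l) true (r :: L) =
      [(0, true)] ++ wl (lam P z r l) false L := by
    show (lam P z r l r, true) :: wl _ (!true) L = _
    rw [lam_r hF]
    rfl
  have hn := hC.cl.nodup
  rw [List.nodup_cons] at hn
  rw [h1, ← FreeGroup.mul_mk]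
  congr 1
  exact mk_wl P L false fun x hx => gapZ hF hx fun hh => hn.1 (hh ▸ hx)

/-- the curve with standard labels -/
theorem std (T : VApi ℝ) (hC : Crv (P.DC z t) true (r :: L) E) (hF : P.Fat z t r l L) :
    ∃ (L' : List ℝ) (E' : ℝ → ℝ), Crv (DZ P z) true L' E' ∧
      (∀ x ∈ L', x ≠ g L' 0 → (DZ P z).lab x ≠ (DZ P z).lab (g L' 0)) ∧
      P040H251.wd (DZ P z) true L' =
        FreeGroup.mk [(0, true)] * psi h (P.rk (P.pos z)) (Pst.wd P.G0 true L) ∧
      T.val true (r :: L) E - E r = T.val true L' E' - E' (g L' 0) := by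
  have hinj : Set.InjOn (phi P z r l) {x | x ∈ r :: L} :=
    fun x hx y hy hxy => (cut hF).inj x hx y hy hxy
  obtain ⟨E', hE⟩ : ∃ E' : ℝ → ℝ, ∀ x ∈ r :: L, E' (phi P z r l x) = E x := by
    refine ⟨fun y => E (Function.invFunOn (phi P z r l) {x | x ∈ r :: L} y), ?_⟩
    intro x hx
    show E (Function.invFunOn _ _ (phi P z r l x)) = E x
    rw [hinj.leftInvOn_invFunOn hx]
  have hC' := crvZ hC hF hE
  refine ⟨_, _, hC', ?_, wordZ hC hF, ?_⟩
  · intro x hx hne
    rw [List.mem_map] at hx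
    obtain ⟨y, hy, rfl⟩ := hx
    have h0 : g ((r :: L).map (phi P z r l)) 0 = phi P z r l r := rfl
    rw [h0] at hne ⊢
    show ⌊phi P z r l y⌋₊ ≠ ⌊phi P z r l r⌋₊
    rw [floor_phi, floor_phi]
    exact lab_ne hF hy (fun hh => hne (by rw [hh]))
  · rw [T.val_map hC hC' rfl (cut hF) hE]
    congr 1
    exact (hE r (by simp)).symm

/-- **Uniqueness of the values** of the selector `T`. -/
theorem uniq (T : VApi ℝ) {t' r' l' : ℝ} {L' : List ℝ} {E' : ℝ → ℝ}
    (h1 : Crv (P.DC z t) true (r :: L) E) (f1 : P.Fat z t r l L)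
    (h2 : Crv (P.DC z t') true (r' :: L') E') (f2 : P.Fat z t' r' l' L')
    (hw : Pst.wd P.G0 true L = Pst.wd P.G0 true L') :
    T.val true (r :: L) E - E r = T.val true (r' :: L') E' - E' r' := by
  obtain ⟨L1, F1, a1, a2, a3, a4⟩ := std T h1 f1
  obtain ⟨L2, F2, b1, b2, b3, b4⟩ := std T h2 f2
  rw [a4, b4]
  exact T.class_eq a1 b1 a2 b2 (by rw [a3, b3, hw])

end OU

end P040H251
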