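import Vale.Agent.P040.H242.OValDef
import Vale.Agent.P040.H251.OUniq

/-!
# P040, odd layer: the field `uniq` of `FHyp` (helper251)
-/

set_option autoImplicit false

namespace P040H251

open Vale.Agent.P040 Vale.Agent.P040.H682

/-- **Row (U): uniqueness of the values**, for every selector `T` and every leaf `z`. -/
theorem valT_uniq {h : ℕ} {P : OData h} {T : VApi ℝ} {z : Fin (2 * h + 1)} {R : FreeGroup ℕ}
    {v v' : ℝ} (h1 : P.ValT T z R v) (h2 : P.ValT T z R v') : v = v' := by
  obtain ⟨t, r, l, L, E, hC, hF, hw, rfl⟩ := h1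
  obtain ⟨t', r', l', L', E', hC', hF', hw', rfl⟩ := h2
  exact OU.uniq T hC hF hC' hF' (hw.trans hw'.symm)

end P040H251
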