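import Mathlib

/-!
Closed curves as cyclic lists of spine points (P040, helper251): partner functions, deletion of
an adjacent pair, planarity.
-/

namespace P040H251

/-- partner index in the upper page: `0 ↔ 1`, `2 ↔ 3`, ... -/
def uI (i : ℕ) : ℕ := if i % 2 = 0 then i + 1 else i - 1

/-- partner index in the lower page: `1 ↔ 2`, `3 ↔ 4`, ..., `n-1 ↔ 0` -/
def lI (n i : ℕ) : ℕ :=
  if i % 2 = 1 then (if i + 1 = n then 0 else i + 1) else (if i = 0 then n - 1 else i - 1)

variable {α : Type*} [LinearOrder α] [Inhabited α]

/-- `i`-th entry -/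
def g (L : List α) (i : ℕ) : α := L.getD i default

/-- partner in the upper page -/
def uOf (L : List α) (x : α) : α := g L (uI (L.idxOf x))

/-- partner in the lower page -/
def lOf (L : List α) (x : α) : α := g L (lI L.length (L.idxOf x))

/-- a cyclic list: even length, no repetition, at least one pair -/
structure CL {α : Type*} (L : List α) : Prop where
  nodup : L.Nodup
  even : L.length % 2 = 0
  pos : 0 < L.length

theorem g_mem {L : List α} {i : ℕ} (h : i < L.length) : g L i ∈ L := by
  unfold g
  rw [List.getD_eq_getElem _ _ h]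
  exact List.getElem_mem h

theorem idx_g {L : List α} (hL : L.Nodup) {i : ℕ} (h : i < L.length) : L.idxOf (g L i) = i := by
  unfold g
  rw [List.getD_eq_getElem _ _ h]
  exact hL.idxOf_getElem i h

theorem g_idx {L : List α} {x : α} (h : x ∈ L) : g L (L.idxOf x) = x := by
  unfold g
  rw [List.getD_eq_getElem _ _ (List.idxOf_lt_length_of_mem h)]
  simp

theorem ex_idx {L : List α} {x : α} (h : x ∈ L) : ∃ i, i < L.length ∧ g L i = x :=
  ⟨L.idxOf x, List.idxOf_lt_length_of_mem h, g_idx h⟩

theorem g_inj {L : List α} (hL : L.Nodup) {i j : ℕ} (hi : i < L.length) (hj : j < L.length)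
    (h : g L i = g L j) : i = j := by
  rw [← idx_g hL hi, ← idx_g hL hj, h]

theorem g_inj_iff {L : List α} (hL : L.Nodup) {i j : ℕ} (hi : i < L.length)
    (hj : j < L.length) : g L i = g L j ↔ i = j :=
  ⟨g_inj hL hi hj, fun h => h ▸ rfl⟩

theorem uI_lt {n i : ℕ} (hn : n % 2 = 0) (h : i < n) : uI i < n := by
  unfold uI; split_ifs <;> omega

theorem lI_lt {n i : ℕ} (hn : n % 2 = 0) (h : i < n) : lI n i < n := by
  unfold lI; split_ifs <;> omega

theorem uI_cases (i : ℕ) : (i % 2 = 0 ∧ uI i = i + 1) ∨ (i % 2 = 1 ∧ uI i = i - 1) := by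
  unfold uI; split_ifs <;> omega

theorem lI_cases (n i : ℕ) : (i % 2 = 1 ∧ i + 1 = n ∧ lI n i = 0) ∨
    (i % 2 = 1 ∧ i + 1 ≠ n ∧ lI n i = i + 1) ∨ (i = 0 ∧ lI n i = n - 1) ∨
    (i % 2 = 0 ∧ i ≠ 0 ∧ lI n i = i - 1) := by
  unfold lI; split_ifs <;> omega

theorem uI_uI (i : ℕ) : uI (uI i) = i := by
  have h1 := uI_cases i
  have h2 := uI_cases (uI i)
  generalize uI i = j at *
  generalize uI j = k at *
  omega

theorem lI_lI {n i : ℕ} (hn : n % 2 = 0) (h : i < n) : lI n (lI n i) = i := by
  have h1 := lI_cases n i
  have h2 := lI_cases n (lI n i)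
  generalize lI n i = j at *
  generalize lI n j = k at *
  omega

theorem uI_ne (i : ℕ) : uI i ≠ i := by
  unfold uI; split_ifs <;> omega

theorem lI_ne {n i : ℕ} (hn : n % 2 = 0) (h : i < n) : lI n i ≠ i := by
  unfold lI; split_ifs <;> omega

theorem u_g {L : List α} (h : CL L) {i : ℕ} (hi : i < L.length) :
    uOf L (g L i) = g L (uI i) := by
  unfold uOf; rw [idx_g h.nodup hi]

theorem l_g {L : List α} (h : CL L) {i : ℕ} (hi : i < L.length) :
    lOf L (g L i) = g L (lI L.length i) := by
  unfold lOf; rw [idx_g h.nodup hi]

theorem u_mem {L : List α} (h : CL L) {x : α} (hx : x ∈ L) : uOf L x ∈ L := by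
  obtain ⟨i, hi, rfl⟩ := ex_idx hx
  rw [u_g h hi]; exact g_mem (uI_lt h.even hi)

theorem l_mem {L : List α} (h : CL L) {x : α} (hx : x ∈ L) : lOf L x ∈ L := by
  obtain ⟨i, hi, rfl⟩ := ex_idx hx
  rw [l_g h hi]; exact g_mem (lI_lt h.even hi)

theorem u_u {L : List α} (h : CL L) {x : α} (hx : x ∈ L) : uOf L (uOf L x) = x := by
  obtain ⟨i, hi, rfl⟩ := ex_idx hx
  rw [u_g h hi, u_g h (uI_lt h.even hi), uI_uI]

theorem l_l {L : List α} (h : CL L) {x : α} (hx : x ∈ L) : lOf L (lOf L x) = x := by
  obtain ⟨i, hi, rfl⟩ := ex_idx hx
  rw [l_g h hi, l_g h (lI_lt h.even hi), lI_lI h.even hi]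

theorem u_ne {L : List α} (h : CL L) {x : α} (hx : x ∈ L) : uOf L x ≠ x := by
  obtain ⟨i, hi, rfl⟩ := ex_idx hx
  rw [u_g h hi, Ne, g_inj_iff h.nodup (uI_lt h.even hi) hi]
  exact uI_ne i

theorem l_ne {L : List α} (h : CL L) {x : α} (hx : x ∈ L) : lOf L x ≠ x := by
  obtain ⟨i, hi, rfl⟩ := ex_idx hx
  rw [l_g h hi, Ne, g_inj_iff h.nodup (lI_lt h.even hi) hi]
  exact lI_ne h.even hi

/-- connectivity -/
theorem conn {L : List α} (h : CL L) (S : Set α) (hS : ∃ x ∈ L, x ∈ S)
    (hu : ∀ x ∈ L, x ∈ S → uOf L x ∈ S) (hl : ∀ x ∈ L, x ∈ S → lOf L x ∈ S) :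
    ∀ x ∈ L, x ∈ S := by
  obtain ⟨x₀, hx₀, hxS⟩ := hS
  obtain ⟨i₀, hi₀, rfl⟩ := ex_idx hx₀
  -- step up
  have up : ∀ i, i + 1 < L.length → g L i ∈ S → g L (i + 1) ∈ S := by
    intro i hi hs
    have hi' : i < L.length := by omega
    rcases Nat.mod_two_eq_zero_or_one i with h0 | h1
    · have := hu _ (g_mem hi') hs
      rw [u_g h hi'] at this
      have e : uI i = i + 1 := by unfold uI; rw [if_pos h0]
      rwa [e] at this
    · have := hl _ (g_mem hi') hs
      rw [l_g h hi'] at this
      have e : lI L.length i = i + 1 := by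
        unfold lI; rw [if_pos h1, if_neg (by omega)]
      rwa [e] at this
  have down : ∀ i, i + 1 < L.length → g L (i + 1) ∈ S → g L i ∈ S := by
    intro i hi hs
    rcases Nat.mod_two_eq_zero_or_one i with h0 | h1
    · have := hu _ (g_mem hi) hs
      rw [u_g h hi] at this
      have e : uI (i + 1) = i := by unfold uI; rw [if_neg (by omega)]; omega
      rwa [e] at this
    · have := hl _ (g_mem hi) hs
      rw [l_g h hi] at this
      have e : lI L.length (i + 1) = i := by
        unfold lI; rw [if_neg (by omega), if_neg (by omega)]; omega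
      rwa [e] at this
  have all : ∀ j, j < L.length → g L j ∈ S := by
    have h0 : g L 0 ∈ S := by
      have : ∀ k, k ≤ i₀ → g L (i₀ - k) ∈ S := by
        intro k
        induction k with
        | zero => intro _; simpa using hxS
        | succ k ih =>
          intro hk
          have := ih (by omega)
          have e : i₀ - k = (i₀ - (k + 1)) + 1 := by omega
          rw [e] at this
          exact down _ (by omega) this
      have := this i₀ le_rfl
      simpa using this
    intro j
    induction j with
    | zero => intro _; exact h0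
    | succ j ih => intro hj; exact up j hj (ih (by omega))
  intro x hx
  obtain ⟨i, hi, rfl⟩ := ex_idx hx
  exact all i hi

/-! ### deletion -/

/-- splice a partner function at a deleted pair -/
def spl (f : α → α) (a b x : α) : α := if f x = a then f b else if f x = b then f a else f x

/-- index embedding of the shortened list -/
def em (p k : ℕ) : ℕ := if k < p then k else k + 2

theorem g_del (A B : List α) (a b : α) (k : ℕ) :
    g (A ++ B) k = g (A ++ a :: b :: B) (em A.length k) := by
  unfold g em
  split_ifs with h
  · rw [List.getD_append _ _ _ _ h, List.getD_append _ _ _ _ h]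
  · push Not at h
    rw [List.getD_append_right _ _ _ _ h, List.getD_append_right _ _ _ _ (by omega)]
    have : k + 2 - A.length = (k - A.length) + 2 := by omega
    rw [this]
    simp

theorem g_a (A B : List α) (a b : α) : g (A ++ a :: b :: B) A.length = a := by
  unfold g
  rw [List.getD_append_right _ _ _ _ le_rfl]
  simp

theorem g_b (A B : List α) (a b : α) : g (A ++ a :: b :: B) (A.length + 1) = b := by
  unfold g
  rw [List.getD_append_right _ _ _ _ (by omega)]
  have : A.length + 1 - A.length = 1 := by omega
  rw [this]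
  simp

theorem CL.del {A B : List α} {a b : α} (h : CL (A ++ a :: b :: B)) (hp : 0 < (A ++ B).length) :
    CL (A ++ B) := by
  refine ⟨?_, ?_, hp⟩
  · have h1 := h.nodup
    exact h1.sublist (List.Sublist.append_left
      ((List.sublist_cons_self b B).trans (List.sublist_cons_self a _)) A)
  · have := h.even
    simp only [List.length_append, List.length_cons] at this ⊢
    omega

theorem em_lt {A B : List α} {a b : α} {k : ℕ} (h : k < (A ++ B).length) :
    em A.length k < (A ++ a :: b :: B).length := by
  unfold em
  simp only [List.length_append, List.length_cons] at h ⊢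
  split_ifs <;> omega

theorem em_cases (p k : ℕ) : (k < p ∧ em p k = k) ∨ (p ≤ k ∧ em p k = k + 2) := by
  unfold em; split_ifs <;> omega

theorem u_del {A B : List α} {a b : α} (h : CL (A ++ a :: b :: B)) {x : α} (hx : x ∈ A ++ B) :
    uOf (A ++ B) x = spl (uOf (A ++ a :: b :: B)) a b x := by
  obtain ⟨i, hi, rfl⟩ := ex_idx hx
  have hp : 0 < (A ++ B).length := lt_of_le_of_lt (Nat.zero_le _) hi
  have h' := h.del hp
  have hei : em A.length i < (A ++ a :: b :: B).length := em_lt hi
  have ga := g_a A B a b
  have gb := g_b A B a b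
  have gd := g_del A B a b
  have hlen : (A ++ a :: b :: B).length = (A ++ B).length + 2 := by
    simp only [List.length_append, List.length_cons]; omega
  have hAl : A.length ≤ (A ++ B).length := by simp
  generalize hL : A ++ a :: b :: B = L at *
  generalize hM : A ++ B = M at *
  have he := h.even
  have he' := h'.even
  have hAlt : A.length < L.length := by omega
  have hAlt1 : A.length + 1 < L.length := by omega
  have ua : uOf L a = g L (uI A.length) := by have := u_g h hAlt; rwa [ga] at this
  have ub : uOf L b = g L (uI (A.length + 1)) := by have := u_g h hAlt1; rwa [gb] at this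
  have ca : ∀ k, k < L.length → (g L k = a ↔ k = A.length) := fun k hk => by
    rw [← ga, g_inj_iff h.nodup hk hAlt]
  have cb : ∀ k, k < L.length → (g L k = b ↔ k = A.length + 1) := fun k hk => by
    rw [← gb, g_inj_iff h.nodup hk hAlt1]
  rw [u_g h' hi, gd, gd]
  unfold spl
  rw [u_g h hei, ua, ub]
  have key : em A.length (uI i) = if uI (em A.length i) = A.length then uI (A.length + 1) else
      if uI (em A.length i) = A.length + 1 then uI A.length else uI (em A.length i) := by
    have h1 := em_cases A.length i
    have h2 := uI_cases i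
    have h3 := em_cases A.length (uI i)
    have h4 := uI_cases (em A.length i)
    have h5 := uI_cases A.length
    have h6 := uI_cases (A.length + 1)
    generalize em A.length (uI i) = r1 at *
    generalize uI (em A.length i) = r2 at *
    generalize uI i = r3 at *
    generalize em A.length i = r4 at *
    generalize uI A.length = r5 at *
    generalize uI (A.length + 1) = r6 at *
    split_ifs <;> omega
  rw [key]
  by_cases c1 : uI (em A.length i) = A.length
  · rw [if_pos c1, if_pos ((ca _ (uI_lt he hei)).2 c1)]
  · rw [if_neg c1, if_neg (fun hh => c1 ((ca _ (uI_lt he hei)).1 hh))]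
    by_cases c2 : uI (em A.length i) = A.length + 1
    · rw [if_pos c2, if_pos ((cb _ (uI_lt he hei)).2 c2)]
    · rw [if_neg c2, if_neg (fun hh => c2 ((cb _ (uI_lt he hei)).1 hh))]

theorem l_del {A B : List α} {a b : α} (h : CL (A ++ a :: b :: B)) {x : α} (hx : x ∈ A ++ B) :
    lOf (A ++ B) x = spl (lOf (A ++ a :: b :: B)) a b x := by
  obtain ⟨i, hi, rfl⟩ := ex_idx hx
  have hp : 0 < (A ++ B).length := lt_of_le_of_lt (Nat.zero_le _) hi
  have h' := h.del hp
  have hei : em A.length i < (A ++ a :: b :: B).length := em_lt hi
  have ga := g_a A B a b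
  have gb := g_b A B a b
  have gd := g_del A B a b
  have hlen : (A ++ a :: b :: B).length = (A ++ B).length + 2 := by
    simp only [List.length_append, List.length_cons]; omega
  have hAl : A.length ≤ (A ++ B).length := by simp
  generalize hL : A ++ a :: b :: B = L at *
  generalize hM : A ++ B = M at *
  have he := h.even
  have he' := h'.even
  have hAlt : A.length < L.length := by omega
  have hAlt1 : A.length + 1 < L.length := by omega
  have ua : lOf L a = g L (lI L.length A.length) := by have := l_g h hAlt; rwa [ga] at this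
  have ub : lOf L b = g L (lI L.length (A.length + 1)) := by
    have := l_g h hAlt1; rwa [gb] at this
  have ca : ∀ k, k < L.length → (g L k = a ↔ k = A.length) := fun k hk => by
    rw [← ga, g_inj_iff h.nodup hk hAlt]
  have cb : ∀ k, k < L.length → (g L k = b ↔ k = A.length + 1) := fun k hk => by
    rw [← gb, g_inj_iff h.nodup hk hAlt1]
  rw [l_g h' hi, gd, gd]
  unfold spl
  rw [l_g h hei, ua, ub]
  have key : em A.length (lI M.length i) = if lI L.length (em A.length i) = A.length
      then lI L.length (A.length + 1) else
      if lI L.length (em A.length i) = A.length + 1 then lI L.length A.length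
      else lI L.length (em A.length i) := by
    have h1 := em_cases A.length i
    have h2 := lI_cases M.length i
    have h3 := em_cases A.length (lI M.length i)
    have h4 := lI_cases L.length (em A.length i)
    have h5 := lI_cases L.length A.length
    have h6 := lI_cases L.length (A.length + 1)
    generalize em A.length (lI M.length i) = r1 at *
    generalize lI L.length (em A.length i) = r2 at *
    generalize lI M.length i = r3 at *
    generalize em A.length i = r4 at *
    generalize lI L.length A.length = r5 at *
    generalize lI L.length (A.length + 1) = r6 at *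
    generalize L.length = n at *
    generalize M.length = n' at *
    generalize A.length = p at *
    split_ifs <;> omega
  rw [key]
  by_cases c1 : lI L.length (em A.length i) = A.length
  · rw [if_pos c1, if_pos ((ca _ (lI_lt he hei)).2 c1)]
  · rw [if_neg c1, if_neg (fun hh => c1 ((ca _ (lI_lt he hei)).1 hh))]
    by_cases c2 : lI L.length (em A.length i) = A.length + 1
    · rw [if_pos c2, if_pos ((cb _ (lI_lt he hei)).2 c2)]
    · rw [if_neg c2, if_neg (fun hh => c2 ((cb _ (lI_lt he hei)).1 hh))]

end P040H251
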