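import Vale.Agent.P040.H251.Unique
import Vale.Agent.P040.H251.CList
import Vale.Agent.P040.H906.Sel1

/-!
The selector is a function of the reduced word (P040, helper251).
-/

set_option linter.unusedSectionVars false
set_option linter.unusedVariables false

namespace P040H251

open Vale.Agent.P040.H906 Finset

variable {α : Type*} [LinearOrder α] [Inhabited α]

/-- partner function of page `b`; the flag `s` is the page of the pair (first, second) of the list -/
def fO (s : Bool) (L : List α) (b : Bool) : α → α :=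
  match s, b with
  | true, true => uOf L
  | true, false => lOf L
  | false, true => lOf L
  | false, false => uOf L

/-- the configuration of a cyclic list -/
def cfg (s : Bool) (L : List α) : Cfg α := ⟨L.toFinset, fO s L⟩

@[simp] theorem cfg_S (s : Bool) (L : List α) : (cfg s L).S = L.toFinset := rfl
@[simp] theorem cfg_f (s : Bool) (L : List α) (b : Bool) (x : α) :
    (cfg s L).f b x = fO s L b x := rfl

/-- no two chords of one page interleave -/
def Planar (s : Bool) (L : List α) : Prop :=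
  ∀ b, ∀ x ∈ L, ∀ y ∈ L, Cyc x y (fO s L b x) → Cyc x (fO s L b y) (fO s L b x)

theorem f_mem {L : List α} (h : CL L) (s b : Bool) {x : α} (hx : x ∈ L) : fO s L b x ∈ L := by
  cases s <;> cases b
  · exact u_mem h hx
  · exact l_mem h hx
  · exact l_mem h hx
  · exact u_mem h hx

theorem f_f {L : List α} (h : CL L) (s b : Bool) {x : α} (hx : x ∈ L) :
    fO s L b (fO s L b x) = x := by
  cases s <;> cases b
  · exact u_u h hx
  · exact l_l h hx
  · exact l_l h hx
  · exact u_u h hx

theorem f_ne {L : List α} (h : CL L) (s b : Bool) {x : α} (hx : x ∈ L) : fO s L b x ≠ x := by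
  cases s <;> cases b
  · exact u_ne h hx
  · exact l_ne h hx
  · exact l_ne h hx
  · exact u_ne h hx

theorem f_del {A B : List α} {a a' : α} (h : CL (A ++ a :: a' :: B)) (s b : Bool) {x : α}
    (hx : x ∈ A ++ B) : fO s (A ++ B) b x = spl (fO s (A ++ a :: a' :: B) b) a a' x := by
  cases s <;> cases b
  · exact u_del h hx
  · exact l_del h hx
  · exact l_del h hx
  · exact u_del h hx

theorem f_conn {L : List α} (h : CL L) (s : Bool) (S : Set α) (hS : ∃ x ∈ L, x ∈ S)
    (hf : ∀ b, ∀ x ∈ L, x ∈ S → fO s L b x ∈ S) : ∀ x ∈ L, x ∈ S := by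
  cases s
  · exact conn h S hS (fun x h1 h2 => hf false x h1 h2) (fun x h1 h2 => hf true x h1 h2)
  · exact conn h S hS (fun x h1 h2 => hf true x h1 h2) (fun x h1 h2 => hf false x h1 h2)

theorem cfg_good {s : Bool} {L : List α} (h : CL L) (hp : Planar s L) : (cfg s L).Good where
  mem := fun b x hx => by simp at hx ⊢; exact f_mem h s b hx
  inv := fun b x hx => by simp at hx ⊢; exact f_f h s b hx
  ne := fun b x hx => by simp at hx ⊢; exact f_ne h s b hx
  nc := fun b x hx y hy => by simp at hx hy ⊢; exact hp b x hx y hy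
  conn := by
    intro A hA hne hcl
    apply Finset.Subset.antisymm hA
    intro x hx
    obtain ⟨y, hy⟩ := hne
    have hyL : y ∈ L := by simpa using hA hy
    exact f_conn h s {z | z ∈ A} ⟨y, hyL, hy⟩ (fun b z _ hz => hcl b z hz) x (by simpa using hx)
  nonem := by
    have := h.pos
    refine ⟨g L 0, ?_⟩
    simp only [cfg_S, List.mem_toFinset]
    exact g_mem this

theorem planar_of_good {s : Bool} {L : List α} (h : (cfg s L).Good) : Planar s L :=
  fun b x hx y hy => h.nc b x (by simpa using hx) y (by simpa using hy)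

theorem card_cfg {s : Bool} {L : List α} (h : CL L) : (cfg s L).S.card = L.length := by
  simp only [cfg_S]
  exact List.toFinset_card_of_nodup h.nodup

/-- two configurations which agree -/
structure Agree (c c' : Cfg α) : Prop where
  S : c'.S = c.S
  f : ∀ b, ∀ x ∈ c.S, c'.f b x = c.f b x

theorem Agree.good {c c' : Cfg α} (h : Agree c c') (hg : c.Good) : c'.Good where
  mem := fun b x hx => by rw [h.S] at hx ⊢; rw [h.f b x hx]; exact hg.mem b x hx
  inv := fun b x hx => by
    rw [h.S] at hx; rw [h.f b x hx, h.f b _ (hg.mem b x hx)]; exact hg.inv b x hx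
  ne := fun b x hx => by rw [h.S] at hx; rw [h.f b x hx]; exact hg.ne b x hx
  nc := fun b x hx y hy => by
    rw [h.S] at hx hy; rw [h.f b x hx, h.f b y hy]; exact hg.nc b x hx y hy
  conn := fun A hA hne hcl => by
    rw [h.S] at hA ⊢
    refine hg.conn A hA hne fun b x hx => ?_
    rw [← h.f b x (hA hx)]; exact hcl b x hx
  nonem := by rw [h.S]; exact hg.nonem

theorem nmem_del {A B : List α} {a a' : α} (h : (A ++ a :: a' :: B).Nodup) :
    a ∉ A ++ B ∧ a' ∉ A ++ B ∧ a ≠ a' := by
  rw [List.nodup_append] at h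
  obtain ⟨-, h2, h3⟩ := h
  rw [List.nodup_cons, List.nodup_cons] at h2
  simp only [List.mem_cons, not_or] at h2
  obtain ⟨⟨h4, h5⟩, h6, -⟩ := h2
  refine ⟨?_, ?_, h4⟩
  · intro hh
    rcases List.mem_append.1 hh with hh | hh
    · exact h3 a hh a (by simp) rfl
    · exact h5 hh
  · intro hh
    rcases List.mem_append.1 hh with hh | hh
    · exact h3 a' hh a' (by simp) rfl
    · exact h6 hh

theorem mem_del_iff {A B : List α} {a a' : α} (h : (A ++ a :: a' :: B).Nodup) (y : α) :
    y ∈ A ++ B ↔ y ≠ a ∧ y ≠ a' ∧ y ∈ A ++ a :: a' :: B := by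
  obtain ⟨h1, h2, -⟩ := nmem_del h
  constructor
  · intro hy
    refine ⟨fun he => h1 (he ▸ hy), fun he => h2 (he ▸ hy), ?_⟩
    simp only [List.mem_append, List.mem_cons] at hy ⊢; tauto
  · rintro ⟨h3, h4, h5⟩
    simp only [List.mem_append, List.mem_cons] at h5 ⊢; tauto

/-- deleting a consecutive pair of the list = deleting the chord -/
theorem agree_del {s : Bool} {A B : List α} {a a' : α} (h : CL (A ++ a :: a' :: B)) {p : Bool}
    {x : α} (hx : x = a ∨ x = a') (hpa : fO s (A ++ a :: a' :: B) p a = a') :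
    Agree ((cfg s (A ++ a :: a' :: B)).del p x) (cfg s (A ++ B)) := by
  have hS := mem_del_iff h.nodup
  have haL : a ∈ A ++ a :: a' :: B := by simp
  have haL' : a' ∈ A ++ a :: a' :: B := by simp
  have hfd := fun (b : Bool) (y : α) (hy : y ∈ A ++ B) => f_del h s b hy
  generalize hL : A ++ a :: a' :: B = L at *
  have hpa' : fO s L p a' = a := by rw [← hpa]; exact f_f h s p haL
  have hxS : ∀ y, y ∈ ((cfg s L).del p x).S ↔ y ∈ A ++ B := by
    intro y
    rw [Cfg.mem_del, hS]
    simp only [cfg_f, cfg_S, List.mem_toFinset]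
    rcases hx with rfl | rfl
    · rw [hpa]; tauto
    · rw [hpa']
  refine ⟨?_, ?_⟩
  · ext y
    rw [hxS y]
    simp
  · intro b y hy
    rw [hxS] at hy
    have hy' := (hS y).1 hy
    show fO s (A ++ B) b y = _
    rw [hfd b y hy]
    rcases Cfg.bool_cases p b with rfl | rfl
    · rw [Cfg.del_same]
      unfold spl
      have e1 : ¬ fO s L b y = a := by
        intro hh
        apply hy'.2.1
        rw [← hpa, ← hh, f_f h s b hy'.2.2]
      have e2 : ¬ fO s L b y = a' := by
        intro hh
        apply hy'.1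
        rw [← hpa', ← hh, f_f h s b hy'.2.2]
      rw [if_neg e1, if_neg e2]
      rfl
    · have e1 : ((cfg s L).del p x).f (!p) y =
          if fO s L (!p) y = x then fO s L (!p) (fO s L p x)
            else if fO s L (!p) y = fO s L p x then fO s L (!p) x else fO s L (!p) y :=
        Cfg.del_other (cfg s L) p x y
      rw [e1]
      unfold spl
      rcases hx with rfl | rfl
      · rw [hpa]
      · rw [hpa']
        by_cases h1 : fO s L (!p) y = a
        · rw [if_pos h1]
          by_cases h2 : fO s L (!p) y = x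
          · exfalso
            have h3 := f_ne h s p haL
            rw [hpa, ← h1, ← h2] at h3
            exact h3 rfl
          · rw [if_neg h2, if_pos h1]
        · rw [if_neg h1]
          by_cases h2 : fO s L (!p) y = x
          · rw [if_pos h2, if_pos h2]
          · rw [if_neg h2, if_neg h2, if_neg h1]

/-! ### the data: labels and masses -/

/-- labels (gaps between the leaves) and the cumulative masses of the two pages; `2 * M` is the
mass of a hemisphere -/
structure Dat (α : Type*) [LinearOrder α] where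
  lab : α → ℕ
  mono : Monotone lab
  C : Bool → ℕ → ℝ
  Cmono : ∀ b, Monotone (C b)
  M : ℝ
  pos : 0 < M
  tot : ∀ b i j, C b j - C b i ≤ 2 * M

/-- a closed curve with its phase function -/
structure Crv (D : Dat α) (s : Bool) (L : List α) (E : α → ℝ) : Prop where
  cl : CL L
  pl : Planar s L
  inc : ∀ b, ∀ x ∈ L, sg b * (E (fO s L b x) - E x) =
    D.C b (D.lab (fO s L b x)) - D.C b (D.lab x) + (if x < fO s L b x then - D.M else D.M)

theorem Crv.good {D : Dat α} {s : Bool} {L : List α} {E : α → ℝ} (h : Crv D s L E) :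
    (cfg s L).Good := cfg_good h.cl h.pl

/-- it is enough to know the increments from the left end of every chord -/
theorem crv_of_lt {D : Dat α} {s : Bool} {L : List α} {E : α → ℝ} (cl : CL L) (pl : Planar s L)
    (hinc : ∀ b, ∀ x ∈ L, x < fO s L b x → sg b * (E (fO s L b x) - E x) =
      D.C b (D.lab (fO s L b x)) - D.C b (D.lab x) - D.M) : Crv D s L E where
  cl := cl
  pl := pl
  inc := by
    intro b x hx
    split_ifs with hlt
    · rw [hinc b x hx hlt]; ring
    · have h1 : fO s L b x < x := lt_of_le_of_ne (not_lt.1 hlt) (f_ne cl s b hx)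
      have h2 := hinc b _ (f_mem cl s b hx) (by rw [f_f cl s b hx]; exact h1)
      rw [f_f cl s b hx] at h2
      linarith

/-- region masses are nonnegative -/
theorem Crv.valid {D : Dat α} {s : Bool} {L : List α} {E : α → ℝ} (h : Crv D s L E) :
    (cfg s L).Valid E D.M := by
  classical
  intro b T hT hPD
  have hTL : ∀ x ∈ T, x ∈ L := fun x hx => by simpa using hT hx
  obtain ⟨K, hK⟩ : ∃ K, ∀ x ∈ L, D.lab x ≤ K :=
    ⟨L.toFinset.sup D.lab, fun x hx => Finset.le_sup (f := D.lab) (by simpa using hx)⟩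
  set f := fO s L b with hf
  set δ : ℕ → ℝ := fun j => D.C b (j + 1) - D.C b j with hδ
  have hδ0 : ∀ j, 0 ≤ δ j := fun j => sub_nonneg.2 (D.Cmono b (Nat.le_succ j))
  have hsum : ∀ p q, p ≤ q → ∑ j ∈ Finset.Ico p q, δ j = D.C b q - D.C b p := by
    intro p q hpq
    exact Finset.sum_Ico_sub (D.C b) hpq
  set A : α → Finset ℕ := fun x => if x < f x then Finset.Ico (D.lab x) (D.lab (f x)) else
    Finset.range K \ Finset.Ico (D.lab (f x)) (D.lab x) with hA
  set r : ℝ := 2 * D.M - ∑ j ∈ Finset.range K, δ j with hr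
  have hr0 : 0 ≤ r := by
    have := D.tot b 0 K
    rw [hr, Finset.range_eq_Ico, hsum 0 K (Nat.zero_le _)]
    linarith
  have hAK : ∀ x ∈ T, A x ⊆ Finset.range K := by
    intro x hx j hj
    simp only [hA] at hj
    split_ifs at hj with hlt
    · rw [Finset.mem_Ico] at hj
      rw [Finset.mem_range]
      exact lt_of_lt_of_le hj.2 (hK _ (f_mem h.cl s b (hTL x hx)))
    · exact (Finset.mem_sdiff.1 hj).1
  have hmass : ∀ x ∈ T, D.M + (cfg s L).dl E b x =
      ∑ j ∈ A x, δ j + (if x < f x then 0 else r) := by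
    intro x hx
    have hxL := hTL x hx
    have h1 := h.inc b x hxL
    have h2 : (cfg s L).dl E b x = sg b * (E (fO s L b x) - E x) := rfl
    rw [h2, h1]
    simp only [hA, ← hf]
    split_ifs with hlt
    · rw [hsum _ _ (D.mono hlt.le)]; ring
    · have hle : D.lab (f x) ≤ D.lab x := D.mono (not_lt.1 hlt)
      have hsub : Finset.Ico (D.lab (f x)) (D.lab x) ⊆ Finset.range K := by
        intro j hj
        rw [Finset.mem_Ico] at hj
        exact Finset.mem_range.2 (lt_of_lt_of_le hj.2 (hK x hxL))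
      have h3 := Finset.sum_sdiff (f := δ) hsub
      rw [hsum _ _ hle] at h3
      rw [hr]
      linarith
  have hIn : ∀ x y, x ∈ T → y ∈ T → x ≠ y → ¬ In f x y ∧ ¬ In f y x :=
    fun x y hx hy hxy => hPD x hx y hy hxy
  have hdisj : ∀ x ∈ T, ∀ y ∈ T, x ≠ y → Disjoint (A x) (A y) := by
    -- symmetric in `x`, `y`
    have key : ∀ x ∈ T, ∀ y ∈ T, x < y → Disjoint (A x) (A y) := by
      intro x hx y hy hxy
      obtain ⟨h1, h2⟩ := hIn x y hx hy hxy.ne
      have hfx : f x ≠ x := f_ne h.cl s b (hTL x hx)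
      have hfy : f y ≠ y := f_ne h.cl s b (hTL y hy)
      rw [Finset.disjoint_left]
      intro j hj1 hj2
      simp only [hA] at hj1 hj2
      unfold In Cyc at h1 h2
      by_cases c1 : x < f x
      · rw [if_pos c1, Finset.mem_Ico] at hj1
        have e1 : f x < y := by
          by_contra hcon
          rcases (not_lt.1 hcon).lt_or_eq with hh | hh
          · exact h1 (Or.inr (Or.inr (Or.inl ⟨hxy, hh⟩)))
          · exact h1 (Or.inr (Or.inl hh))
        have e1' := D.mono e1.le
        by_cases c2 : y < f y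
        · rw [if_pos c2, Finset.mem_Ico] at hj2
          omega
        · rw [if_neg c2, Finset.mem_sdiff, Finset.mem_Ico] at hj2
          have c2' : f y < y := lt_of_le_of_ne (not_lt.1 c2) hfy
          have e2 : f y < x := by
            by_contra hcon
            rcases (not_lt.1 hcon).lt_or_eq with hh | hh
            · exact h2 (Or.inr (Or.inr (Or.inr (Or.inl ⟨hh, c2'⟩))))
            · exact h2 (Or.inr (Or.inl hh))
          have e2' := D.mono e2.le
          omega
      · exfalso
        have c1' : f x < x := lt_of_le_of_ne (not_lt.1 c1) hfx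
        exact h1 (Or.inr (Or.inr (Or.inr (Or.inr ⟨c1', hxy⟩))))
    intro x hx y hy hxy
    rcases lt_or_gt_of_ne hxy with hlt | hlt
    · exact key x hx y hy hlt
    · exact (key y hy x hx hlt).symm
  have hwrap : ∑ x ∈ T, (if x < f x then 0 else r) ≤ r := by
    rw [Finset.sum_ite, Finset.sum_const_zero, zero_add, Finset.sum_const]
    have hcard : (T.filter fun x => ¬ x < f x).card ≤ 1 := by
      rw [Finset.card_le_one]
      intro x hx y hy
      rw [Finset.mem_filter] at hx hy
      by_contra hxy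
      have key : ∀ x y, x ∈ T → y ∈ T → x < y → ¬ x < f x → False := by
        intro x y hx hy hxy c1
        obtain ⟨h1, h2⟩ := hIn x y hx hy hxy.ne
        have hfx : f x ≠ x := f_ne h.cl s b (hTL x hx)
        have c1' : f x < x := lt_of_le_of_ne (not_lt.1 c1) hfx
        unfold In Cyc at h1
        exact h1 (Or.inr (Or.inr (Or.inr (Or.inr ⟨c1', hxy⟩))))
      rcases lt_or_gt_of_ne hxy with hlt | hlt
      · exact key x y hx.1 hy.1 hlt hx.2
      · exact key y x hy.1 hx.1 hlt hy.2
    have : ((T.filter fun x => ¬ x < f x).card : ℝ) ≤ 1 := by exact_mod_cast hcard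
    rw [nsmul_eq_mul]
    nlinarith
  calc ∑ x ∈ T, (D.M + (cfg s L).dl E b x)
      = ∑ x ∈ T, (∑ j ∈ A x, δ j + (if x < f x then 0 else r)) := Finset.sum_congr rfl hmass
    _ = ∑ x ∈ T, ∑ j ∈ A x, δ j + ∑ x ∈ T, (if x < f x then 0 else r) :=
        Finset.sum_add_distrib
    _ = ∑ j ∈ T.biUnion A, δ j + ∑ x ∈ T, (if x < f x then 0 else r) := by
        rw [Finset.sum_biUnion]
        intro x hx y hy hxy
        exact hdisj x hx y hy hxy
    _ ≤ ∑ j ∈ Finset.range K, δ j + r := by
        refine add_le_add (Finset.sum_le_sum_of_subset_of_nonneg ?_ fun j _ _ => hδ0 j) hwrap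
        intro j hj
        obtain ⟨x, hx, hjx⟩ := Finset.mem_biUnion.1 hj
        exact hAK x hx hjx
    _ = 2 * D.M := by rw [hr]; ring

/-! ### backtracks -/

/-- an innermost chord with both ends in one gap -/
theorem exists_leaf {D : Dat α} {s : Bool} {L : List α} {E : α → ℝ} (h : Crv D s L E) {b : Bool}
    {x₀ : α} (hx₀ : x₀ ∈ L) (hlab : D.lab (fO s L b x₀) = D.lab x₀) :
    ∃ x ∈ L, x < fO s L b x ∧ D.lab (fO s L b x) = D.lab x ∧
      ∀ z ∈ L, ¬ (x < z ∧ z < fO s L b x) := by
  classical
  set f := fO s L b with hf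
  let P : Finset α := L.toFinset.filter fun x => x < f x ∧ D.lab (f x) = D.lab x
  have hP : P.Nonempty := by
    rcases lt_or_gt_of_ne (f_ne h.cl s b hx₀) with hlt | hlt
    · refine ⟨f x₀, ?_⟩
      simp only [P, Finset.mem_filter, List.mem_toFinset]
      have : f (f x₀) = x₀ := f_f h.cl s b hx₀
      rw [this]
      exact ⟨f_mem h.cl s b hx₀, hlt, hlab.symm⟩
    · refine ⟨x₀, ?_⟩
      simp only [P, Finset.mem_filter, List.mem_toFinset]
      exact ⟨hx₀, hlt, hlab⟩
  obtain ⟨x, hx, hmin⟩ := Finset.exists_min_image P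
    (fun x => (L.toFinset.filter fun z => x < z ∧ z < f x).card) hP
  simp only [P, Finset.mem_filter, List.mem_toFinset] at hx
  obtain ⟨hxL, hxlt, hxlab⟩ := hx
  refine ⟨x, hxL, hxlt, hxlab, ?_⟩
  rintro z hz ⟨hz1, hz2⟩
  have hcy := h.pl b x hxL z hz (Or.inl ⟨hz1, hz2⟩)
  have hfz : x < f z ∧ f z < f x := by
    rcases hcy with hc | hc | hc
    · exact hc
    · exact absurd hxlt (not_lt.2 hc.2.le)
    · exact absurd hxlt (not_lt.2 hc.1.le)
  have main : ∀ w ∈ L, x < w → w < f x → x < f w → f w < f x → w < f w → False := by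
    intro w hw w1 w2 w3 w4 w5
    have hwP : w ∈ P := by
      simp only [P, Finset.mem_filter, List.mem_toFinset]
      refine ⟨hw, w5, ?_⟩
      have l1 := D.mono w1.le
      have l2 := D.mono w4.le
      have l3 := D.mono w5.le
      omega
    have h1 := hmin w hwP
    have h2 : (L.toFinset.filter fun z => w < z ∧ z < f w) ⊂
        (L.toFinset.filter fun z => x < z ∧ z < f x) := by
      rw [Finset.ssubset_iff_of_subset]
      · refine ⟨w, ?_, ?_⟩
        · simp only [Finset.mem_filter, List.mem_toFinset]; exact ⟨hw, w1, w2⟩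
        · simp only [Finset.mem_filter, List.mem_toFinset]
          rintro ⟨-, h3, -⟩; exact lt_irrefl _ h3
      · intro y hy
        simp only [Finset.mem_filter, List.mem_toFinset] at hy ⊢
        exact ⟨hy.1, w1.trans hy.2.1, hy.2.2.trans w4⟩
    exact absurd (Finset.card_lt_card h2) (not_lt.2 h1)
  have hzz : f (f z) = z := f_f h.cl s b hz
  rcases lt_or_gt_of_ne (f_ne h.cl s b hz) with hlt | hlt
  · exact main (f z) (f_mem h.cl s b hz) hfz.1 hfz.2 (by rw [hzz]; exact hz1)
      (by rw [hzz]; exact hz2) (by rw [hzz]; exact hlt)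
  · exact main z hz hz1 hz2 hfz.1 hfz.2 hlt

/-- consecutive entries -/
theorem split_at {L : List α} {k : ℕ} (hk : k + 1 < L.length) :
    L = L.take k ++ g L k :: g L (k + 1) :: L.drop (k + 2) := by
  have h1 : k < L.length := by omega
  unfold g
  rw [List.getD_eq_getElem _ _ h1, List.getD_eq_getElem _ _ hk]
  conv_lhs => rw [← List.take_append_drop k L]
  congr 1
  rw [List.drop_eq_getElem_cons h1, List.drop_eq_getElem_cons hk]

/-- the partner of an entry is a neighbour in the list, except for the closing pair -/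
theorem partner_index {s b : Bool} {L : List α} (h : CL L) {x : α} (hx : x ∈ L)
    (h0 : x ≠ g L 0) (h0' : fO s L b x ≠ g L 0) :
    ∃ k, 0 < k ∧ k + 1 < L.length ∧
      ((x = g L k ∧ fO s L b x = g L (k + 1)) ∨ (x = g L (k + 1) ∧ fO s L b x = g L k)) := by
  obtain ⟨i, hi, rfl⟩ := ex_idx hx
  have hi0 : i ≠ 0 := fun hh => h0 (by rw [hh])
  have he := h.even
  have hu : ∀ j, uI i = j → uOf L (g L i) = g L j := fun j hj => by rw [u_g h hi, hj]
  have hl : ∀ j, lI L.length i = j → lOf L (g L i) = g L j := fun j hj => by rw [l_g h hi, hj]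
  have key : ∀ j, fO s L b (g L i) = g L j → (j = i + 1 ∧ j < L.length ∨ j + 1 = i) →
      ∃ k, 0 < k ∧ k + 1 < L.length ∧
      ((g L i = g L k ∧ fO s L b (g L i) = g L (k + 1)) ∨
        (g L i = g L (k + 1) ∧ fO s L b (g L i) = g L k)) := by
    intro j hj hij
    have hj0 : j ≠ 0 := fun hh => h0' (by rw [hj, hh])
    rcases hij with ⟨rfl, hjl⟩ | hij
    · exact ⟨i, by omega, hjl, Or.inl ⟨rfl, hj⟩⟩
    · exact ⟨j, by omega, by omega, Or.inr ⟨by rw [hij], hj⟩⟩
  have ku : uOf L (g L i) = fO s L b (g L i) → ∃ k, 0 < k ∧ k + 1 < L.length ∧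
      ((g L i = g L k ∧ fO s L b (g L i) = g L (k + 1)) ∨
        (g L i = g L (k + 1) ∧ fO s L b (g L i) = g L k)) := by
    intro hh
    have h1 := uI_cases i
    have h2 := uI_lt he hi
    exact key (uI i) (by rw [← hh]; exact hu _ rfl) (by omega)
  have kl : lOf L (g L i) = fO s L b (g L i) → ∃ k, 0 < k ∧ k + 1 < L.length ∧
      ((g L i = g L k ∧ fO s L b (g L i) = g L (k + 1)) ∨
        (g L i = g L (k + 1) ∧ fO s L b (g L i) = g L k)) := by
    intro hh
    have h1 := lI_cases L.length i
    have h2 := lI_lt he hi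
    have h3 : lI L.length i ≠ 0 := by
      intro h4
      apply h0'
      rw [← hh, hl _ h4]
    exact key (lI L.length i) (by rw [← hh]; exact hl _ rfl) (by omega)
  cases s <;> cases b
  · exact ku rfl
  · exact kl rfl
  · exact kl rfl
  · exact ku rfl

theorem inc_aux {M : ℝ} {x q P Q : α} (hxq : x < q) (hPx : P ≠ x) (hPq : P ≠ q) (hQx : Q ≠ x)
    (hQq : Q ≠ q) (hPQ : P ≠ Q) (hP : ¬ (x < P ∧ P < q)) (hQ : ¬ (x < Q ∧ Q < q))
    (n1 : Cyc x q P → Cyc x Q P) (n2 : Cyc Q x q → Cyc Q P q) :
    (if q < Q then -M else M) + M - (if x < P then -M else M) = if P < Q then -M else M := by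
  unfold Cyc at n1 n2
  by_cases c1 : x < P
  · have c1' : q < P := by
      rcases lt_or_gt_of_ne hPq with h | h
      · exact absurd ⟨c1, h⟩ hP
      · exact h
    have n3 := n1 (Or.inl ⟨hxq, c1'⟩)
    have c2 : x < Q ∧ Q < P := by
      rcases n3 with h | h | h
      · exact h
      · exact absurd c1 (not_lt.2 h.2.le)
      · exact absurd c1 (not_lt.2 h.1.le)
    have c3 : q < Q := by
      rcases lt_or_gt_of_ne hQq with h | h
      · exact absurd ⟨c2.1, h⟩ hQ
      · exact h
    rw [if_pos c3, if_pos c1, if_neg (not_lt.2 c2.2.le)]; ring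
  · have c1' : P < x := lt_of_le_of_ne (not_lt.1 c1) hPx
    by_cases c2 : q < Q
    · rw [if_pos c2, if_neg c1, if_pos (c1'.trans (hxq.trans c2))]; ring
    · have c2' : Q < q := lt_of_le_of_ne (not_lt.1 c2) hQq
      have c3 : Q < x := by
        rcases lt_or_gt_of_ne hQx with h | h
        · exact h
        · exact absurd ⟨h, c2'⟩ hQ
      have c4 : Q < P := by
        rcases n2 (Or.inl ⟨c3, hxq⟩) with h | h | h
        · exact h.1
        · exact absurd c2' (not_lt.2 h.2.le)
        · exact h.2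
      rw [if_neg c2, if_neg c1, if_neg (not_lt.2 c4.le)]; ring

/-- deleting an empty bigon keeps the curve -/
theorem crv_del {D : Dat α} {s : Bool} {A B : List α} {a a' : α} {E : α → ℝ}
    (h : Crv D s (A ++ a :: a' :: B) E) {b : Bool} {x : α} (hx : x = a ∨ x = a')
    (hpa : fO s (A ++ a :: a' :: B) b a = a') (hlen : 2 < (A ++ a :: a' :: B).length)
    (hlt : x < fO s (A ++ a :: a' :: B) b x)
    (hlab : D.lab (fO s (A ++ a :: a' :: B) b x) = D.lab x)
    (hleaf : ∀ z ∈ A ++ a :: a' :: B, ¬ (x < z ∧ z < fO s (A ++ a :: a' :: B) b x)) :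
    Crv D s (A ++ B) E ∧ (cfg s (A ++ a :: a' :: B)).Leaf b x ∧
      D.M + (cfg s (A ++ a :: a' :: B)).dl E b x = 0 := by
  have hag := agree_del h.cl hx hpa
  have hcl : CL (A ++ B) := h.cl.del (by
    simp only [List.length_append, List.length_cons] at hlen ⊢; omega)
  have hgood := h.good
  have hcl0 := h.cl
  have hinc := h.inc
  have hS := mem_del_iff h.cl.nodup
  have hxL : x ∈ A ++ a :: a' :: B := by rcases hx with rfl | rfl <;> simp
  generalize hL : A ++ a :: a' :: B = L at *
  have hq := f_mem hcl0 s b hxL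
  have hlf : (cfg s L).Leaf b x := by
    refine ⟨by simpa using hxL, ?_⟩
    intro z hz hc
    have hz' : z ∈ L := by simpa using hz
    rcases hc with hc | hc | hc
    · exact hleaf z hz' hc
    · exact absurd hlt (not_lt.2 hc.2.le)
    · exact absurd hlt (not_lt.2 hc.1.le)
  have hdl : D.M + (cfg s L).dl E b x = 0 := by
    have h1 := hinc b x hxL
    have h2 : (cfg s L).dl E b x = sg b * (E (fO s L b x) - E x) := rfl
    rw [h2, h1, if_pos hlt, hlab]; ring
  have hcard : 2 < (cfg s L).S.card := by rw [card_cfg hcl0]; exact hlen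
  refine ⟨⟨hcl, planar_of_good (hag.good (Cfg.good_del hgood hcard hlf)), ?_⟩, hlf, hdl⟩
  intro b' y hy
  have hyS : y ∈ ((cfg s L).del b x).S := by
    have := hag.S
    rw [← this]; simpa using hy
  have e0 : fO s (A ++ B) b' y = ((cfg s L).del b x).f b' y := hag.f b' y hyS
  have hyL : y ∈ L := ((hS y).1 hy).2.2
  rcases Cfg.bool_cases b b' with rfl | rfl
  · rw [e0, Cfg.del_same]
    exact hinc b' y hyL
  · have e1 : ((cfg s L).del b x).f (!b) y =
        if fO s L (!b) y = x then fO s L (!b) (fO s L b x)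
          else if fO s L (!b) y = fO s L b x then fO s L (!b) x else fO s L (!b) y :=
      Cfg.del_other (cfg s L) b x y
    -- the two partners
    have hne : fO s L (!b) x ≠ fO s L b x := by
      have := Cfg.Good.ne_other hgood hcard b (x := x) (by simpa using hxL)
      exact this
    set q := fO s L b x with hqd
    set P := fO s L (!b) x with hPd
    set Q := fO s L (!b) q with hQd
    have hPL : P ∈ L := f_mem hcl0 s (!b) hxL
    have hQL : Q ∈ L := f_mem hcl0 s (!b) hq
    have hPx : P ≠ x := f_ne hcl0 s (!b) hxL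
    have hQq : Q ≠ q := f_ne hcl0 s (!b) hq
    have fP : fO s L (!b) P = x := f_f hcl0 s (!b) hxL
    have fQ : fO s L (!b) Q = q := f_f hcl0 s (!b) hq
    have hQx : Q ≠ x := by
      intro hh; apply hne; rw [← fQ, hh]
    have hPQ : P ≠ Q := by
      intro hh
      have : x = q := by rw [← fP, hh, fQ]
      exact hlt.ne this
    have i1 := hinc (!b) x hxL
    have i2 := hinc (!b) q hq
    have i3 := hinc b x hxL
    rw [← hPd] at i1
    rw [← hQd] at i2
    rw [← hqd, if_pos hlt, hlab] at i3
    have hsg : sg (!b) = - sg b := sg_not b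
    have n1 : Cyc x q P → Cyc x Q P := fun hc => h.pl (!b) x hxL q hq hc
    have n2 : Cyc Q x q → Cyc Q P q := by
      intro hc
      have := planar_of_good hgood (!b) Q hQL x hxL (by rw [fQ]; exact hc)
      rw [fQ] at this; exact this
    have aux := inc_aux (M := D.M) hlt hPx hne hQx hQq hPQ (hleaf P hPL) (hleaf Q hQL) n1 n2
    have main : sg (!b) * (E Q - E P) = D.C (!b) (D.lab Q) - D.C (!b) (D.lab P) +
        (if P < Q then -D.M else D.M) := by
      rw [hlab] at i2
      rw [hsg] at i1 i2 ⊢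
      linarith
    rw [e0, e1]
    by_cases c1 : fO s L (!b) y = x
    · have hyP : y = P := by rw [hPd, ← c1, f_f hcl0 s (!b) hyL]
      rw [if_pos c1, hyP]
      exact main
    · by_cases c2 : fO s L (!b) y = q
      · have hyQ : y = Q := by rw [hQd, ← c2, f_f hcl0 s (!b) hyL]
        rw [if_neg c1, if_pos c2, hyQ]
        have : (if Q < P then -D.M else D.M) = - (if P < Q then -D.M else D.M) := by
          rcases lt_or_gt_of_ne hPQ with hh | hh
          · rw [if_pos hh, if_neg (not_lt.2 hh.le)]; ring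
          · rw [if_pos hh, if_neg (not_lt.2 hh.le)]
        rw [this]
        linarith
      · rw [if_neg c1, if_neg c2]
        exact hinc (!b) y hyL

/-! ### the selector, abstractly -/

/-- the properties of a selector which are used here -/
structure SelApi (α : Type*) [LinearOrder α] where
  sel : Cfg α → (α → ℝ) → ℝ
  /-- `sel` only depends on the configuration and the phase on `S`; it is invariant under monotone
  relabelling -/
  iso : ∀ (c c' : Cfg α) (E E' : α → ℝ) (M : ℝ) (φ : α → α), c.Good → c'.Good →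
    c.Valid E M → c'.Valid E' M → StrictMonoOn φ (c.S : Set α) → (∀ x ∈ c.S, φ x ∈ c'.S) →
    (∀ y ∈ c'.S, ∃ x ∈ c.S, φ x = y) → (∀ b, ∀ x ∈ c.S, φ (c.f b x) = c'.f b (φ x)) →
    (∀ x ∈ c.S, E' (φ x) = E x) → sel c E = sel c' E'
  add : ∀ (c : Cfg α) (E : α → ℝ) (M t : ℝ), c.Good → c.Valid E M →
    sel c (fun x => E x + t) = sel c E + t
  leaf : ∀ (c : Cfg α) (E : α → ℝ) (M : ℝ) (b : Bool) (x : α), c.Good → c.Valid E M →
    2 < c.S.card → c.Leaf b x → M + c.dl E b x = 0 → sel (c.del b x) E = sel c E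
  /-- monotone in the phase (the masses may differ) -/
  mono : ∀ (c : Cfg α) (E E' : α → ℝ) (M M' : ℝ), c.Good → c.Valid E M → c.Valid E' M' →
    (∀ x ∈ c.S, E x ≤ E' x) → sel c E ≤ sel c E'

theorem SelApi.agree (T : SelApi α) {c c' : Cfg α} {E : α → ℝ} {M : ℝ} (h : Agree c c')
    (hg : c.Good) (hv : c.Valid E M) (hv' : c'.Valid E M) : T.sel c' E = T.sel c E := by
  refine (T.iso c c' E E M id hg (h.good hg) hv hv' (fun x _ y _ hxy => hxy) ?_ ?_ ?_ ?_).symm
  · intro x hx; rw [h.S]; exact hx
  · intro y hy; rw [h.S] at hy; exact ⟨y, hy, rfl⟩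
  · intro b x hx; exact (h.f b x hx).symm
  · intro x _; rfl

/-- value of the selector on a curve given as a list -/
noncomputable def SelApi.val (T : SelApi α) (s : Bool) (L : List α) (E : α → ℝ) : ℝ :=
  T.sel (cfg s L) E

/-- **(I1)** a backtrack can be removed -/
theorem backtrack (T : SelApi α) {D : Dat α} {s : Bool} {L : List α} {E : α → ℝ}
    (h : Crv D s L E) (huniq : ∀ x ∈ L, x ≠ g L 0 → D.lab x ≠ D.lab (g L 0)) {b : Bool} {x₀ : α}
    (hx₀ : x₀ ∈ L) (hlab : D.lab (fO s L b x₀) = D.lab x₀) :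
    ∃ A a a' B, L = A ++ a :: a' :: B ∧ 0 < A.length ∧ D.lab a = D.lab a' ∧
      Crv D s (A ++ B) E ∧ T.val s (A ++ B) E = T.val s L E := by
  obtain ⟨x, hxL, hlt, hxlab, hleaf⟩ := exists_leaf h hx₀ hlab
  have hfL := f_mem h.cl s b hxL
  have h0 : x ≠ g L 0 := by
    intro hh
    refine huniq _ hfL ?_ ?_
    · rw [← hh]; exact f_ne h.cl s b hxL
    · rw [hxlab, ← hh]
  have h0' : fO s L b x ≠ g L 0 := by
    intro hh
    refine huniq x hxL h0 ?_
    rw [← hxlab, hh]
  obtain ⟨k, hk0, hk1, hk⟩ := partner_index h.cl hxL h0 h0'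
  have hsp := split_at hk1
  refine ⟨L.take k, g L k, g L (k + 1), L.drop (k + 2), hsp, ?_, ?_, ?_⟩
  · rw [List.length_take]; omega
  · rcases hk with ⟨h1, h2⟩ | ⟨h1, h2⟩
    · rw [← h1, ← h2, hxlab]
    · rw [← h1, ← h2, hxlab]
  · have hx' : x = g L k ∨ x = g L (k + 1) := by
      rcases hk with ⟨h1, h2⟩ | ⟨h1, h2⟩
      · exact Or.inl h1
      · exact Or.inr h1
    have hpa : fO s L b (g L k) = g L (k + 1) := by
      rcases hk with ⟨h1, h2⟩ | ⟨h1, h2⟩
      · rw [← h1, h2]
      · rw [← h2, ← h1]; exact f_f h.cl s b hxL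
    have hlen : 2 < L.length := by have := h.cl.even; omega
    have hv := h.valid
    have hg := h.good
    have hcard : 2 < (cfg s L).S.card := by rw [card_cfg h.cl]; exact hlen
    have hnew : Crv D s (L.take k ++ L.drop (k + 2)) E ∧ (cfg s L).Leaf b x ∧
        D.M + (cfg s L).dl E b x = 0 := by
      have := crv_del (D := D) (s := s) (A := L.take k) (B := L.drop (k + 2)) (a := g L k)
        (a' := g L (k + 1)) (E := E) (b := b) (x := x)
      rw [← hsp] at this
      exact this h hx' hpa hlen hlt hxlab hleaf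
    obtain ⟨n1, n2, n3⟩ := hnew
    refine ⟨n1, ?_⟩
    have hag : Agree ((cfg s L).del b x) (cfg s (L.take k ++ L.drop (k + 2))) := by
      have := agree_del (s := s) (A := L.take k) (B := L.drop (k + 2)) (a := g L k)
        (a' := g L (k + 1)) (p := b) (x := x)
      rw [← hsp] at this
      exact this h.cl hx' hpa
    have e1 := T.leaf (cfg s L) E D.M b x hg hv hcard n2 n3
    have e2 := T.agree hag (Cfg.good_del hg hcard n2) (Cfg.valid_del hg hcard n2 hv n3)
      n1.valid
    unfold SelApi.val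
    rw [e2, e1]

/-! ### words -/

/-- the letters of a list, with alternating signs -/
def wl (lab : α → ℕ) : Bool → List α → List (ℕ × Bool)
  | _, [] => []
  | t, x :: l => (lab x, t) :: wl lab (!t) l

/-- the word of the curve, read from the head: an upward crossing of the gap `j` gives `j`, a
downward crossing gives `j⁻¹`; (`s = true`: the first chord is above, so the head is an upward
crossing) -/
def wd (D : Dat α) (s : Bool) (L : List α) : FreeGroup ℕ := FreeGroup.mk (wl D.lab s L)

theorem wl_append (lab : α → ℕ) (A B : List α) (t : Bool) :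
    wl lab t (A ++ B) = wl lab t A ++ wl lab (if A.length % 2 = 0 then t else !t) B := by
  induction A generalizing t with
  | nil => simp [wl]
  | cons a A ih =>
    rw [List.cons_append, wl, wl, ih, List.cons_append, List.length_cons]
    congr 2
    congr 1
    rcases Nat.mod_two_eq_zero_or_one A.length with h | h
    · rw [if_pos h, if_neg (by omega)]
    · rw [if_neg (by omega), if_pos (by omega), Bool.not_not]

theorem wd_del (D : Dat α) (s : Bool) (A B : List α) {a a' : α} (h : D.lab a = D.lab a') :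
    wd D s (A ++ a :: a' :: B) = wd D s (A ++ B) := by
  unfold wd
  rw [wl_append, wl_append, wl, wl, Bool.not_not, h]
  apply Quot.sound
  exact FreeGroup.Red.Step.not

theorem wl_length (lab : α → ℕ) (t : Bool) (L : List α) : (wl lab t L).length = L.length := by
  induction L generalizing t with
  | nil => rfl
  | cons a L ih => rw [wl, List.length_cons, List.length_cons, ih]

theorem wl_reduced (lab : α → ℕ) (t : Bool) (L : List α)
    (h : ∀ k, k + 1 < L.length → lab (g L k) ≠ lab (g L (k + 1))) :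
    FreeGroup.IsReduced (wl lab t L) := by
  induction L generalizing t with
  | nil => simp [wl]
  | cons a L ih =>
    have hL : ∀ k, k + 1 < L.length → lab (g L k) ≠ lab (g L (k + 1)) := by
      intro k hk
      have := h (k + 1) (by rw [List.length_cons]; omega)
      simpa [g] using this
    have ih' := ih (!t) hL
    match L, h, ih' with
    | [], _, _ => simp [wl]
    | c :: L', h, ih' =>
      have h1 := h 0 (by simp)
      simp only [g, List.getD_cons_zero, List.getD_cons_succ, zero_add] at h1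
      unfold FreeGroup.IsReduced at ih' ⊢
      rw [wl, wl, List.isChain_cons_cons]
      rw [wl] at ih'
      exact ⟨fun hh => absurd hh h1, ih'⟩

theorem wl_map (lab : α → ℕ) (t t' : Bool) (L L' : List α) (h : wl lab t L = wl lab t' L') :
    L.map lab = L'.map lab := by
  induction L generalizing t t' L' with
  | nil =>
    cases L' with
    | nil => rfl
    | cons a L' => simp [wl] at h
  | cons a L ih =>
    cases L' with
    | nil => simp [wl] at h
    | cons a' L' =>
      rw [wl, wl, List.cons.injEq, Prod.mk.injEq] at h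
      rw [List.map_cons, List.map_cons, h.1.1, ih _ _ _ h.2]

/-- partner index on page `b` -/
def pI (n : ℕ) (s b : Bool) (i : ℕ) : ℕ :=
  match s, b with
  | true, true => uI i
  | true, false => lI n i
  | false, true => lI n i
  | false, false => uI i

theorem pI_lt {n : ℕ} {s b : Bool} {i : ℕ} (hn : n % 2 = 0) (h : i < n) : pI n s b i < n := by
  cases s <;> cases b
  · exact uI_lt hn h
  · exact lI_lt hn h
  · exact lI_lt hn h
  · exact uI_lt hn h

theorem f_g {L : List α} (h : CL L) (s b : Bool) {i : ℕ} (hi : i < L.length) :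
    fO s L b (g L i) = g L (pI L.length s b i) := by
  cases s <;> cases b
  · exact u_g h hi
  · exact l_g h hi
  · exact l_g h hi
  · exact u_g h hi

/-- neighbours in the list are partners -/
theorem adj_page {L : List α} (h : CL L) (s : Bool) {k : ℕ} (hk : k + 1 < L.length) :
    ∃ b, fO s L b (g L k) = g L (k + 1) := by
  have hk' : k < L.length := by omega
  rcases Nat.mod_two_eq_zero_or_one k with h0 | h1
  · have e : uI k = k + 1 := by unfold uI; rw [if_pos h0]
    cases s
    · exact ⟨false, by rw [f_g h _ _ hk']; show g L (uI k) = _; rw [e]⟩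
    · exact ⟨true, by rw [f_g h _ _ hk']; show g L (uI k) = _; rw [e]⟩
  · have e : lI L.length k = k + 1 := by unfold lI; rw [if_pos h1, if_neg (by omega)]
    cases s
    · exact ⟨true, by rw [f_g h _ _ hk']; show g L (lI L.length k) = _; rw [e]⟩
    · exact ⟨false, by rw [f_g h _ _ hk']; show g L (lI L.length k) = _; rw [e]⟩

/-- every curve with a marked head can be reduced, without changing the value and the word -/
theorem exists_reduced (T : SelApi α) {D : Dat α} {s : Bool} {E : α → ℝ} :
    ∀ (n : ℕ) (L : List α), L.length = n → Crv D s L E →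
      (∀ x ∈ L, x ≠ g L 0 → D.lab x ≠ D.lab (g L 0)) →
      ∃ L', Crv D s L' E ∧ g L' 0 = g L 0 ∧ wd D s L' = wd D s L ∧ T.val s L' E = T.val s L E ∧
        (∀ b, ∀ x ∈ L', D.lab (fO s L' b x) ≠ D.lab x) := by
  intro n
  induction n using Nat.strong_induction_on with
  | _ n ih =>
    intro L hn h hu
    by_cases hb : ∃ b, ∃ x ∈ L, D.lab (fO s L b x) = D.lab x
    · obtain ⟨b, x, hx, hxl⟩ := hb
      obtain ⟨A, a, a', B, hL, hA, haa, hC, hval⟩ := backtrack T h hu hx hxl
      have hlen : (A ++ B).length < n := by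
        rw [← hn, hL]; simp only [List.length_append, List.length_cons]; omega
      have h0 : g (A ++ B) 0 = g L 0 := by
        rw [hL, g_del A B a a']
        unfold em; rw [if_pos hA]
      have hu' : ∀ x ∈ A ++ B, x ≠ g (A ++ B) 0 → D.lab x ≠ D.lab (g (A ++ B) 0) := by
        intro y hy
        rw [h0]
        refine hu y ?_
        rw [hL]
        simp only [List.mem_append, List.mem_cons] at hy ⊢
        tauto
      obtain ⟨L', k1, k2, k3, k4, k5⟩ := ih _ hlen (A ++ B) rfl hC hu'
      refine ⟨L', k1, k2.trans h0, ?_, k4.trans hval, k5⟩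
      rw [k3, hL, wd_del D s A B haa]
    · push Not at hb
      exact ⟨L, h, rfl, rfl, rfl, hb⟩

/-- two reduced curves with the same letters -/
theorem class_aux (T : SelApi α) {D : Dat α} {s : Bool} {L₁ L₂ : List α} {E₁ E₂ : α → ℝ}
    (h₁ : Crv D s L₁ E₁) (h₂ : Crv D s L₂ E₂)
    (r₁ : ∀ b, ∀ x ∈ L₁, D.lab (fO s L₁ b x) ≠ D.lab x)
    (r₂ : ∀ b, ∀ x ∈ L₂, D.lab (fO s L₂ b x) ≠ D.lab x)
    (hmap : L₁.map D.lab = L₂.map D.lab) :
    T.val s L₁ E₁ - E₁ (g L₁ 0) = T.val s L₂ E₂ - E₂ (g L₂ 0) := by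
  have hlen : L₁.length = L₂.length := by
    have := congrArg List.length hmap
    simpa using this
  have hlab : ∀ i, i < L₁.length → D.lab (g L₁ i) = D.lab (g L₂ i) := by
    intro i hi
    have hi2 : i < L₂.length := hlen ▸ hi
    unfold g
    rw [List.getD_eq_getElem _ _ hi, List.getD_eq_getElem _ _ hi2]
    have h3 : (L₁.map D.lab)[i]'(by simpa using hi) = (L₂.map D.lab)[i]'(by simpa using hi2) := by
      simp only [hmap]
    simpa using h3
  let φ : α → α := fun x => g L₂ (L₁.idxOf x)
  have hφ : ∀ i, i < L₁.length → φ (g L₁ i) = g L₂ i := by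
    intro i hi
    show g L₂ (L₁.idxOf (g L₁ i)) = g L₂ i
    rw [idx_g h₁.cl.nodup hi]
  have hφmem : ∀ x ∈ L₁, φ x ∈ L₂ := by
    intro x hx
    obtain ⟨i, hi, rfl⟩ := ex_idx hx
    rw [hφ i hi]; exact g_mem (hlen ▸ hi)
  have hφf : ∀ b, ∀ x ∈ L₁, φ (fO s L₁ b x) = fO s L₂ b (φ x) := by
    intro b x hx
    obtain ⟨i, hi, rfl⟩ := ex_idx hx
    rw [f_g h₁.cl s b hi, hφ i hi, f_g h₂.cl s b (hlen ▸ hi), hφ _ (pI_lt h₁.cl.even hi), hlen]
  have hφlab : ∀ x ∈ L₁, D.lab (φ x) = D.lab x := by
    intro x hx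
    obtain ⟨i, hi, rfl⟩ := ex_idx hx
    rw [hφ i hi, hlab i hi]
  have hφinj : ∀ x ∈ L₁, ∀ y ∈ L₁, φ x = φ y → x = y := by
    intro x hx y hy hxy
    obtain ⟨i, hi, rfl⟩ := ex_idx hx
    obtain ⟨j, hj, rfl⟩ := ex_idx hy
    rw [hφ i hi, hφ j hj] at hxy
    rw [g_inj h₂.cl.nodup (hlen ▸ hi) (hlen ▸ hj) hxy]
  have hφsurj : ∀ y ∈ L₂, ∃ x ∈ L₁, φ x = y := by
    intro y hy
    obtain ⟨j, hj, rfl⟩ := ex_idx hy
    exact ⟨g L₁ j, g_mem (hlen ▸ hj), hφ j (hlen ▸ hj)⟩
  -- the two planar diagrams
  have mk : ∀ (L : List α) (E : α → ℝ), Crv D s L E →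
      (∀ b, ∀ x ∈ L, D.lab (fO s L b x) ≠ D.lab x) →
      ∃ G : Dg {x // x ∈ L} ℕ, (∀ x, G.gap x = D.lab x.1) ∧ (∀ x, (G.u x).1 = fO s L true x.1) ∧
        (∀ x, (G.l x).1 = fO s L false x.1) := by
    intro L E h r
    have ncb : ∀ b, NC (fun x : {x // x ∈ L} => (⟨fO s L b x.1, f_mem h.cl s b x.2⟩ :
        {x // x ∈ L})) := by
      intro b a c hac hc
      have hac' : a.1 < c.1 := hac
      have hc' : c.1 < fO s L b a.1 := hc
      have := h.pl b a.1 a.2 c.1 c.2 (Or.inl ⟨hac', hc'⟩)
      show a.1 < fO s L b c.1 ∧ fO s L b c.1 < fO s L b a.1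
      rcases this with hh | hh | hh
      · exact hh
      · exact absurd (hac'.trans hc') (not_lt.2 hh.2.le)
      · exact absurd (hac'.trans hc') (not_lt.2 hh.1.le)
    exact ⟨{
      gap := fun x => D.lab x.1
      gap_mono := fun x y hxy => D.mono hxy
      u := fun x => ⟨fO s L true x.1, f_mem h.cl s true x.2⟩
      l := fun x => ⟨fO s L false x.1, f_mem h.cl s false x.2⟩
      uu := fun x => Subtype.ext (f_f h.cl s true x.2)
      ll := fun x => Subtype.ext (f_f h.cl s false x.2)
      u_nc := ncb true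
      l_nc := ncb false
      u_red := fun x => r true x.1 x.2
      l_red := fun x => r false x.1 x.2 }, fun _ => rfl, fun _ => rfl, fun _ => rfl⟩
  obtain ⟨G₁, g1, g2, g3⟩ := mk L₁ E₁ h₁ r₁
  obtain ⟨G₂, k1, k2, k3⟩ := mk L₂ E₂ h₂ r₂
  let ψ : {x // x ∈ L₁} → {x // x ∈ L₂} := fun x => ⟨φ x.1, hφmem x.1 x.2⟩
  haveI : Finite {x // x ∈ L₁} := by
    have : Finite {x // x ∈ L₁.toFinset} := inferInstance
    exact Finite.of_injective (β := {x // x ∈ L₁.toFinset})
      (fun x => ⟨x.1, by simpa using x.2⟩) (fun x y hxy => Subtype.ext (by simpa using hxy))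
  have hmono : StrictMono ψ := by
    refine unique G₁ G₂ ?_ ψ ?_ ?_ ?_ ?_
    · intro S hS hu hl x
      obtain ⟨x₀, hx₀⟩ := hS
      have := f_conn h₁.cl s {y | ∃ hy : y ∈ L₁, (⟨y, hy⟩ : {x // x ∈ L₁}) ∈ S}
        ⟨x₀.1, x₀.2, x₀.2, hx₀⟩ ?_ x.1 x.2
      · obtain ⟨_, hh⟩ := this; exact hh
      · intro b y hy hyS
        obtain ⟨hy', hyS⟩ := hyS
        refine ⟨f_mem h₁.cl s b hy, ?_⟩
        cases b
        · have := hl _ hyS
          have e : G₁.l ⟨y, hy'⟩ = ⟨fO s L₁ false y, f_mem h₁.cl s false hy⟩ :=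
            Subtype.ext (g3 _)
          rwa [e] at this
        · have := hu _ hyS
          have e : G₁.u ⟨y, hy'⟩ = ⟨fO s L₁ true y, f_mem h₁.cl s true hy⟩ :=
            Subtype.ext (g2 _)
          rwa [e] at this
    · intro x y hxy
      exact Subtype.ext (hφinj x.1 x.2 y.1 y.2 (congrArg Subtype.val hxy))
    · intro x
      rw [g1, k1]; exact hφlab x.1 x.2
    · intro x
      apply Subtype.ext
      rw [k2]
      show φ (G₁.u x).1 = _
      rw [g2]; exact hφf true x.1 x.2
    · intro x
      apply Subtype.ext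
      rw [k3]
      show φ (G₁.l x).1 = _
      rw [g3]; exact hφf false x.1 x.2
  have hlt : ∀ x ∈ L₁, ∀ y ∈ L₁, x < y → φ x < φ y := by
    intro x hx y hy hxy
    exact hmono (a := ⟨x, hx⟩) (b := ⟨y, hy⟩) hxy
  have hiff : ∀ x ∈ L₁, ∀ y ∈ L₁, (φ x < φ y ↔ x < y) := by
    intro x hx y hy
    constructor
    · intro hh
      rcases lt_trichotomy x y with h | h | h
      · exact h
      · rw [h] at hh; exact absurd hh (lt_irrefl _)
      · exact absurd (hlt y hy x hx h) (not_lt.2 hh.le)
    · exact hlt x hx y hy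
  -- the phases differ by a constant
  have hconst : ∀ x ∈ L₁, E₂ (φ x) - E₁ x = E₂ (φ (g L₁ 0)) - E₁ (g L₁ 0) := by
    refine f_conn h₁.cl s {x | E₂ (φ x) - E₁ x = E₂ (φ (g L₁ 0)) - E₁ (g L₁ 0)}
      ⟨g L₁ 0, g_mem h₁.cl.pos, rfl⟩ ?_
    intro b x hx hxS
    have hxS' : E₂ (φ x) - E₁ x = E₂ (φ (g L₁ 0)) - E₁ (g L₁ 0) := hxS
    show E₂ (φ (fO s L₁ b x)) - E₁ (fO s L₁ b x) = _
    have i1 := h₁.inc b x hx
    have i2 := h₂.inc b (φ x) (hφmem x hx)
    rw [← hφf b x hx] at i2
    rw [hφlab x hx, hφlab _ (f_mem h₁.cl s b hx)] at i2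
    have hif : (if φ x < φ (fO s L₁ b x) then -D.M else D.M) =
        (if x < fO s L₁ b x then -D.M else D.M) := by
      have := hiff x hx _ (f_mem h₁.cl s b hx)
      by_cases c : x < fO s L₁ b x
      · rw [if_pos c, if_pos (this.2 c)]
      · rw [if_neg c, if_neg (fun hh => c (this.1 hh))]
    rw [hif, ← i1] at i2
    have hsg : sg b = 1 ∨ sg b = -1 := by cases b <;> simp [sg]
    rcases hsg with hs | hs <;> rw [hs] at i2 <;> linarith
  have h0 : φ (g L₁ 0) = g L₂ 0 := hφ 0 h₁.cl.pos
  set t := E₂ (g L₂ 0) - E₁ (g L₁ 0) with ht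
  rw [h0] at hconst
  -- shift the phase of the first curve
  have hv₁ := h₁.valid
  have hsh : (cfg s L₁).Valid (fun x => E₁ x + t) D.M := by
    intro b T' hT' hPD
    have := hv₁ b T' hT' hPD
    refine le_trans (le_of_eq ?_) this
    apply Finset.sum_congr rfl
    intro x _
    show D.M + sg b * (E₁ _ + t - (E₁ x + t)) = D.M + sg b * (E₁ _ - E₁ x)
    ring
  have e1 := T.iso (cfg s L₁) (cfg s L₂) (fun x => E₁ x + t) E₂ D.M φ h₁.good h₂.good hsh h₂.valid
    (by
      intro x hx y hy hxy
      simp only [cfg_S, List.coe_toFinset, Set.mem_setOf_eq] at hx hy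
      exact hlt x hx y hy hxy)
    (by
      intro x hx
      simp only [cfg_S, List.mem_toFinset] at hx ⊢
      exact hφmem x hx)
    (by
      intro y hy
      simp only [cfg_S, List.mem_toFinset] at hy ⊢
      exact hφsurj y hy)
    (by
      intro b x hx
      simp only [cfg_S, List.mem_toFinset] at hx
      exact hφf b x hx)
    (by
      intro x hx
      simp only [cfg_S, List.mem_toFinset] at hx
      have := hconst x hx
      linarith)
  have e2 := T.add (cfg s L₁) E₁ D.M t h₁.good hv₁
  unfold SelApi.val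
  rw [← e1, e2, ht]
  ring

/-- **(I2) The class theorem.** The value of the selector, normalised at a marked head, is a
function of the word in the free group on the gaps. -/
theorem class_eq (T : SelApi α) {D : Dat α} {s : Bool} {L₁ L₂ : List α} {E₁ E₂ : α → ℝ}
    (h₁ : Crv D s L₁ E₁) (h₂ : Crv D s L₂ E₂)
    (u₁ : ∀ x ∈ L₁, x ≠ g L₁ 0 → D.lab x ≠ D.lab (g L₁ 0))
    (u₂ : ∀ x ∈ L₂, x ≠ g L₂ 0 → D.lab x ≠ D.lab (g L₂ 0))
    (hw : wd D s L₁ = wd D s L₂) :
    T.val s L₁ E₁ - E₁ (g L₁ 0) = T.val s L₂ E₂ - E₂ (g L₂ 0) := by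
  obtain ⟨M₁, a1, a2, a3, a4, a5⟩ := exists_reduced T _ L₁ rfl h₁ u₁
  obtain ⟨M₂, b1, b2, b3, b4, b5⟩ := exists_reduced T _ L₂ rfl h₂ u₂
  have red : ∀ (M : List α) (E : α → ℝ), Crv D s M E →
      (∀ b, ∀ x ∈ M, D.lab (fO s M b x) ≠ D.lab x) →
      FreeGroup.IsReduced (wl D.lab s M) := by
    intro M E h r
    refine wl_reduced _ _ _ fun k hk => ?_
    obtain ⟨b, hb⟩ := adj_page h.cl s hk
    have := r b (g M k) (g_mem (by omega))
    rw [hb] at this
    exact this.symm
  have r1 := red M₁ E₁ a1 a5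
  have r2 := red M₂ E₂ b1 b5
  have hw' : FreeGroup.mk (wl D.lab s M₁) = FreeGroup.mk (wl D.lab s M₂) := by
    have : wd D s M₁ = wd D s M₂ := by rw [a3, b3, hw]
    exact this
  have hw2 := FreeGroup.reduce.sound hw'
  rw [r1.reduce_eq, r2.reduce_eq] at hw2
  have hmap := wl_map _ _ _ _ _ hw2
  have := class_aux T a1 b1 a5 b5 hmap
  rw [a2, a4, b2, b4] at this
  exact this

end P040H251
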