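import Vale.Agent.P040.H700.HexGeom
import Vale.Agent.P040.H870.Cut
import Vale.Agent.P040.H177.OddHex
import Vale.Agent.P040.H522.OFin

/-!
# P040, odd layer: the hexagon rule (glue of 700, 870, 177) (helper251)
-/

set_option autoImplicit false

namespace P040H251

open Vale.Agent.P040 Vale.Agent.P040.H906 Vale.Agent.P040.H682 Vale.Agent.P040.H700
  Vale.Agent.P040.Pst

variable {h : ℕ}

/-- the hexagon inequality at the centre -/
theorem hexAt (P : OData h) {S : List (Fin (2 * h + 1) × List ℝ)} (hS : IsStar P.pos S) {ε : ℝ}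
    (h0 : 0 < ε) (hε : Sepd ε (pts S)) {a b c : Fin (2 * h + 1) × List ℝ}
    {A B L : List (Fin (2 * h + 1) × List ℝ)} (hSe : S = a :: (A ++ b :: (B ++ c :: L)))
    {EO : ℝ → ℝ}
    (hE : Crv (DK P (sh3 a.1 b.1 c.1 1 1 1) ε) false (dbl ε (a :: (A ++ b :: (B ++ [c])))) EO) :
    HexAt P ε (a :: (A ++ b :: (B ++ [c]))) a.1 b.1 c.1 EO := by
  intro Fp Fm hp hm hpe hme
  have hT : (a :: (A ++ b :: (B ++ [c]))).Sublist S := by
    have e : S = (a :: (A ++ b :: (B ++ [c]))) ++ L := by rw [hSe]; simp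
    rw [e]
    exact List.sublist_append_left _ _
  have hfn : ((a :: (A ++ b :: (B ++ [c]))).map Prod.fst).Nodup :=
    hS.map_fst_nodup.sublist (List.Sublist.map _ hT)
  have hfn' : (a.1 :: (A.map Prod.fst ++ b.1 :: (B.map Prod.fst ++ [c.1]))).Nodup := by
    simpa using hfn
  have hab : a.1 ≠ b.1 := by intro hh; rw [hh] at hfn'; simp at hfn'
  have hac : a.1 ≠ c.1 := by intro hh; rw [hh] at hfn'; simp at hfn'
  have hbc : b.1 ≠ c.1 := by
    rw [List.nodup_cons, List.nodup_append, List.nodup_cons] at hfn'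
    intro hh
    exact hfn'.2.2.1.1 (by rw [hh]; simp)
  have hL := H177.law_hex_down hS hT h0 hε (a := a) (b := b) (c := c) (by simp) (by simp)
    (by simp) hab hac hbc hE
  set T := a :: (A ++ b :: (B ++ [c])) with hTd
  have key := H870.hex_law (c := cfg false (dbl ε T))
    (col := fun x => !upc false (dbl ε T) x) hE.good (ColOK.neg (colOK_upc hE.cl false)) hL
    (fun i => Fp (-i)) (fun i => Fm (-i)) (fun i => hp (-i)) (fun i => hm (-i)) ?_ ?_
  · have e : ∑ i : ZMod 3, (vt (fun x => !upc false (dbl ε T) x) (cfg false (dbl ε T)) (Fp (-i)) -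
        vt (fun x => !upc false (dbl ε T) x) (cfg false (dbl ε T)) (Fm (-i))) =
        ∑ i : ZMod 3, (vt (fun x => !upc false (dbl ε T) x) (cfg false (dbl ε T)) (Fp i) -
        vt (fun x => !upc false (dbl ε T) x) (cfg false (dbl ε T)) (Fm i)) :=
      Equiv.sum_comp (Equiv.neg (ZMod 3)) (fun i =>
        vt (fun x => !upc false (dbl ε T) x) (cfg false (dbl ε T)) (Fp i) -
        vt (fun x => !upc false (dbl ε T) x) (cfg false (dbl ε T)) (Fm i))
    rw [e] at key
    have e3 : ∀ f : ZMod 3 → ℝ, ∑ i : ZMod 3, f i = f 0 + f 1 + f 2 :=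
      fun f => Fin.sum_univ_three f
    rw [e3] at key
    exact key
  · intro i x hx hcol
    have hx' : x ∈ dbl ε T := List.mem_toFinset.1 hx
    have hu : upc false (dbl ε T) x = false := by
      have : (!upc false (dbl ε T) x) = true := hcol
      simpa using this
    rw [hpe (-i) x hx' hu]
    congr 1
    by_cases h1 : arc P ε T a.1 b.1 c.1 x = -i
    · rw [if_pos h1, if_pos (by rw [h1, neg_neg])]
    · rw [if_neg h1, if_neg (fun h2 => h1 (by rw [← h2, neg_neg]))]
  · intro i x hx hcol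
    have hx' : x ∈ dbl ε T := List.mem_toFinset.1 hx
    have hu : upc false (dbl ε T) x = false := by
      have : (!upc false (dbl ε T) x) = true := hcol
      simpa using this
    rw [hme (-i) x hx' hu]
    congr 1
    by_cases h1 : arc P ε T a.1 b.1 c.1 x = -i
    · rw [if_pos h1, if_pos (by rw [h1, neg_neg])]
    · rw [if_neg h1, if_neg (fun h2 => h1 (by rw [← h2, neg_neg]))]

/-- **Row (H).** -/
theorem hexGeom (P : OData h) : OTri.HexGeom P vminus :=
  hexGeom_of P fun _ hS _ h0 hε _ _ _ _ _ _ hSe _ hE => hexAt P hS h0 hε hSe hE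

/-- **The odd machine.** -/
theorem oddMachine : Odd.OddMachine := H522.oddMachine_of_hex fun _ P => hexGeom P

end P040H251
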