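import Vale.Agent.P040.H251.SelInst
import Vale.Agent.P040.H84.Ins

/-!
# The coloured selector on curves given as lists (P040, helper251)

`upc s L x` says that the curve `L` crosses the line upwards at `x`. A `VApi` is a selector which
may look at this colour; `vplus` (`c₊`, value at the surviving upward crossing), `vminus` (`c₋`)
and `vmean` (the mean, which is `selApi`) are examples. Everything which was proved for
`SelApi.val` holds for `VApi.val`: deletion of a pair, class theorem, insertion.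
-/

set_option linter.unusedSectionVars false
set_option linter.unusedVariables false

namespace P040H251

open Vale.Agent.P040.H906

section

variable {α : Type*} [LinearOrder α] [Inhabited α]

/-- the curve crosses upwards at `x`: it leaves `x` into the upper page -/
def upc (s : Bool) (L : List α) (x : α) : Bool := pgk s (L.idxOf x)

theorem upc_g {s : Bool} {L : List α} (hn : L.Nodup) {i : ℕ} (hi : i < L.length) :
    upc s L (g L i) = pgk s i := by
  unfold upc
  rw [idx_g hn hi]

theorem pgk_mod {s : Bool} {i j : ℕ} (h : i % 2 = j % 2) : pgk s i = pgk s j := by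
  unfold pgk; rw [h]

theorem pgk_flip {s : Bool} {i j : ℕ} (h : i % 2 ≠ j % 2) : pgk s i = !pgk s j := by
  rw [← pgk_succ]
  exact pgk_mod (by omega)

theorem pgk_not {s : Bool} {i : ℕ} : pgk (!s) i = !pgk s i := by
  unfold pgk
  split_ifs
  · rfl
  · rfl

theorem pgk_pI {s b : Bool} {n i : ℕ} (hn : n % 2 = 0) (hi : i < n) (s' : Bool) :
    pgk s' (pI n s b i) = !pgk s' i := by
  have h1 : pgk s' (uI i) = !pgk s' i := by
    apply pgk_flip
    have := uI_cases i
    omega
  have h2 : pgk s' (lI n i) = !pgk s' i := by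
    apply pgk_flip
    have := lI_cases n i
    omega
  cases s <;> cases b
  · exact h1
  · exact h2
  · exact h2
  · exact h1

theorem colOK_upc {s : Bool} {L : List α} (h : CL L) (s' : Bool) :
    ColOK (upc s' L) (cfg s L) := by
  intro b x hx
  have hx' : x ∈ L := List.mem_toFinset.1 hx
  show upc s' L (fO s L b x) = !upc s' L x
  obtain ⟨i, hi, rfl⟩ := ex_idx hx'
  rw [f_g h s b hi, upc_g h.nodup (pI_lt h.even hi), upc_g h.nodup hi, pgk_pI h.even hi]

theorem upc_del {s : Bool} {A B : List α} {a a' : α} (h : (A ++ a :: a' :: B).Nodup) {x : α}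
    (hx : x ∈ A ++ B) : upc s (A ++ B) x = upc s (A ++ a :: a' :: B) x := by
  have hn : (A ++ B).Nodup := by
    refine h.sublist ?_
    refine List.Sublist.append (List.Sublist.refl A) ?_
    exact ((List.sublist_cons_self a' B).trans (List.sublist_cons_self a (a' :: B)))
  obtain ⟨k, hk, rfl⟩ := ex_idx hx
  rw [upc_g hn hk, g_del A B a a', upc_g h (em_lt hk)]
  apply pgk_mod
  have := em_cases A.length k
  omega

end

/-! ### the interface -/

/-- a selector which may use the colours of the points -/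
structure VApi (α : Type*) [LinearOrder α] where
  sel : (α → Bool) → Cfg α → (α → ℝ) → ℝ
  /-- only the configuration, the phase and the colours on `S` matter; only the cyclic order of
  the points matters -/
  iso : ∀ (col col' : α → Bool) (c c' : Cfg α) (E E' : α → ℝ) (M : ℝ) (φ : α → α),
    ColOK col c → ColOK col' c' → c.Good → c'.Good → c.Valid E M → c'.Valid E' M → Iso φ c c' →
    (∀ x ∈ c.S, E' (φ x) = E x) → (∀ x ∈ c.S, col' (φ x) = col x) → sel col c E = sel col' c' E'
  add : ∀ (col : α → Bool) (c : Cfg α) (E : α → ℝ) (M t : ℝ), ColOK col c → c.Good →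
    c.Valid E M → sel col c (fun x => E x + t) = sel col c E + t
  leaf : ∀ (col : α → Bool) (c : Cfg α) (E : α → ℝ) (M : ℝ) (b : Bool) (x : α), ColOK col c →
    c.Good → c.Valid E M → 2 < c.S.card → c.Leaf b x → M + c.dl E b x = 0 →
    sel col (c.del b x) E = sel col c E
  mono : ∀ (col : α → Bool) (c : Cfg α) (E E' : α → ℝ) (M M' : ℝ), ColOK col c → c.Good →
    c.Valid E M → c.Valid E' M' → (∀ x ∈ c.S, E x ≤ E' x) → sel col c E ≤ sel col c E'

section inst

variable {α : Type*} [LinearOrder α]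

/-- `c₊`: the value at the surviving upward crossing -/
noncomputable def vplus : VApi α where
  sel := fun col c E => vt col c E
  iso := fun col col' c c' E E' M φ hc hc' hg hg' hv hv' hi hE hcc =>
    vt_iso hg hg' hc hc' hv hi hE hcc
  add := fun col c E M t hc hg hv => vt_add t hg hc hv
  leaf := fun col c E M b x hc hg hv h2 hl h0 => vt_leaf hg hc hv h2 hl h0
  mono := fun col c E E' M M' hc hg hv hv' hle => vt_mono _ c rfl hg hc E E' M M' hv hv' hle

/-- `c₋`: the value at the surviving downward crossing -/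
noncomputable def vminus : VApi α where
  sel := fun col c E => vt (fun x => !col x) c E
  iso := fun col col' c c' E E' M φ hc hc' hg hg' hv hv' hi hE hcc =>
    vt_iso hg hg' (ColOK.neg hc) (ColOK.neg hc') hv hi hE (fun x hx => by rw [hcc x hx])
  add := fun col c E M t hc hg hv => vt_add t hg (ColOK.neg hc) hv
  leaf := fun col c E M b x hc hg hv h2 hl h0 => vt_leaf hg (ColOK.neg hc) hv h2 hl h0
  mono := fun col c E E' M M' hc hg hv hv' hle => vt_mono _ c rfl hg (ColOK.neg hc) E E' M M' hv hv' hle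

theorem vt_mem {col : α → Bool} {c : Cfg α} {E : α → ℝ} {M : ℝ} (hg : c.Good)
    (hcol : ColOK col c) (hv : c.Valid E M) : ∃ x ∈ c.S, col x = true ∧ vt col c E = E x := by
  obtain ⟨a, ha⟩ := exists_out' hg hcol hv
  exact ⟨a, ha.mem, ha.col, vt_eq hg hcol ha⟩

end inst

section val

variable {α : Type*} [LinearOrder α] [Inhabited α]

/-- value of a curve given as a list -/
noncomputable def VApi.val (T : VApi α) (s : Bool) (L : List α) (E : α → ℝ) : ℝ :=
  T.sel (upc s L) (cfg s L) E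

theorem VApi.congr (T : VApi α) {col col' : α → Bool} {c c' : Cfg α} {E E' : α → ℝ} {M : ℝ}
    (h : Agree c c') (hcol : ColOK col c) (hg : c.Good) (hv : c.Valid E M)
    (hc : ∀ x ∈ c.S, col' x = col x) (hE : ∀ x ∈ c.S, E' x = E x) :
    T.sel col' c' E' = T.sel col c E := by
  have hcol' : ColOK col' c' := by
    intro b x hx
    have hx' : x ∈ c.S := by rwa [← h.S]
    rw [h.f b x hx', hc x hx', hc _ (hg.mem b x hx')]
    exact hcol b x hx'
  have hi : Iso id c c' :=
    { map := fun x hx => by rw [h.S]; exact hx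
      surj := fun y hy => ⟨y, by rwa [← h.S], rfl⟩
      inj := fun x _ y _ h => h
      comm := fun b x hx => (h.f b x hx).symm
      cyc := fun x _ y _ z _ => Iff.rfl }
  have hv' : c'.Valid E' M := Iso.valid hg hi (fun x hx => hE x hx) hv
  exact (T.iso col col' c c' E E' M id hcol hcol' hg (h.good hg) hv hv' hi
    (fun x hx => hE x hx) (fun x hx => hc x hx)).symm

/-- the value only depends on the phase on the curve -/
theorem VApi.congrE (T : VApi α) {D : Dat α} {s : Bool} {L : List α} {E E' : α → ℝ}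
    (h : Crv D s L E) (hE : ∀ x ∈ L, E' x = E x) : T.val s L E' = T.val s L E :=
  T.congr ⟨rfl, fun _ _ _ => rfl⟩ (colOK_upc h.cl s) h.good h.valid (fun _ _ => rfl)
    (fun x hx => hE x (List.mem_toFinset.1 hx))

theorem VApi.val_mono (T : VApi α) {D D' : Dat α} {s : Bool} {L : List α} {E E' : α → ℝ}
    (h : Crv D s L E) (h' : Crv D' s L E') (hE : ∀ x ∈ L, E x ≤ E' x) :
    T.val s L E ≤ T.val s L E' :=
  T.mono _ _ E E' D.M D'.M (colOK_upc h.cl s) h.good h.valid h'.valid
    (fun x hx => hE x (List.mem_toFinset.1 hx))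

theorem VApi.val_add (T : VApi α) {D : Dat α} {s : Bool} {L : List α} {E : α → ℝ}
    (h : Crv D s L E) (t : ℝ) : T.val s L (fun x => E x + t) = T.val s L E + t :=
  T.add _ _ E D.M t (colOK_upc h.cl s) h.good h.valid

/-- a shifted phase -/
theorem Crv.addE {D : Dat α} {s : Bool} {L : List α} {E : α → ℝ} (h : Crv D s L E) (t : ℝ) :
    Crv D s L (fun x => E x + t) where
  cl := h.cl
  pl := h.pl
  inc := by
    intro b x hx
    have := h.inc b x hx
    show sg b * (E (fO s L b x) + t - (E x + t)) = _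
    rw [← this]; ring

theorem VApi.val_mono_add (T : VApi α) {D D' : Dat α} {s : Bool} {L : List α} {E E' : α → ℝ}
    (h : Crv D s L E) (h' : Crv D' s L E') (t : ℝ) (hE : ∀ x ∈ L, E x ≤ E' x + t) :
    T.val s L E ≤ T.val s L E' + t := by
  rw [← T.val_add h' t]
  exact T.val_mono h (h'.addE t) hE

theorem VApi.val_lip (T : VApi α) {D D' : Dat α} {s : Bool} {L : List α} {E E' : α → ℝ}
    (h : Crv D s L E) (h' : Crv D' s L E') (t : ℝ) (hE : ∀ x ∈ L, |E x - E' x| ≤ t) :
    |T.val s L E - T.val s L E'| ≤ t := by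
  rw [abs_le]
  constructor
  · have := T.val_mono_add h' h t (fun x hx => by
      have := abs_le.1 (hE x hx); linarith)
    linarith
  · have := T.val_mono_add h h' t (fun x hx => by
      have := abs_le.1 (hE x hx); linarith)
    linarith

/-- `c₊` is attained at an upward crossing -/
theorem vplus_mem {D : Dat α} {s : Bool} {L : List α} {E : α → ℝ} (h : Crv D s L E) :
    ∃ i < L.length, pgk s i = true ∧ vplus.val s L E = E (g L i) := by
  obtain ⟨x, hx, hxc, he⟩ := vt_mem h.good (colOK_upc h.cl s) h.valid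
  obtain ⟨i, hi, rfl⟩ := ex_idx (List.mem_toFinset.1 hx)
  rw [upc_g h.cl.nodup hi] at hxc
  exact ⟨i, hi, hxc, he⟩

/-- `c₋` is attained at a downward crossing -/
theorem vminus_mem {D : Dat α} {s : Bool} {L : List α} {E : α → ℝ} (h : Crv D s L E) :
    ∃ i < L.length, pgk s i = false ∧ vminus.val s L E = E (g L i) := by
  obtain ⟨x, hx, hxc, he⟩ := vt_mem h.good (ColOK.neg (colOK_upc h.cl s)) h.valid
  obtain ⟨i, hi, rfl⟩ := ex_idx (List.mem_toFinset.1 hx)
  have hxc' : (!upc s L (g L i)) = true := hxc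
  rw [upc_g h.cl.nodup hi] at hxc'
  exact ⟨i, hi, by simpa using hxc', he⟩

/-- the old selector is the mean of the two new ones -/
theorem selApi_val_eq {D : Dat α} {s : Bool} {L : List α} {E : α → ℝ} (h : Crv D s L E) :
    (selApi (W := α)).val s L E = (vplus.val s L E + vminus.val s L E) / 2 :=
  selv_eq h.good (colOK_upc h.cl s) h.valid

/-! ### deletion -/

/-- deletion of an empty bigon (general form) -/
theorem VApi.del_core (T : VApi α) {D : Dat α} {s : Bool} {A B : List α} {a a' : α}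
    {E : α → ℝ} (h : Crv D s (A ++ a :: a' :: B) E) {b : Bool} {x : α} (hx : x = a ∨ x = a')
    (hpa : fO s (A ++ a :: a' :: B) b a = a') (hlen : 2 < (A ++ a :: a' :: B).length)
    (hlt : x < fO s (A ++ a :: a' :: B) b x)
    (hlab : D.lab (fO s (A ++ a :: a' :: B) b x) = D.lab x)
    (hleaf : ∀ z ∈ A ++ a :: a' :: B, ¬ (x < z ∧ z < fO s (A ++ a :: a' :: B) b x)) :
    Crv D s (A ++ B) E ∧ T.val s (A ++ B) E = T.val s (A ++ a :: a' :: B) E := by
  obtain ⟨n1, n2, n3⟩ := crv_del h hx hpa hlen hlt hlab hleaf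
  refine ⟨n1, ?_⟩
  have hcard : 2 < (cfg s (A ++ a :: a' :: B)).S.card := by rw [card_cfg h.cl]; exact hlen
  have hag := agree_del (s := s) (A := A) (B := B) (a := a) (a' := a') (p := b) (x := x)
    h.cl hx hpa
  have hc := colOK_upc (s := s) h.cl s
  have hxS : x ∈ (cfg s (A ++ a :: a' :: B)).S := n2.1
  have e1 := T.leaf (upc s (A ++ a :: a' :: B)) (cfg s (A ++ a :: a' :: B)) E D.M b x hc
    h.good h.valid hcard n2 n3
  have e2 := T.congr (col' := upc s (A ++ B)) (E' := E) hag (hc.del h.good b hxS)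
    (Cfg.good_del h.good hcard n2) (Cfg.valid_del h.good hcard n2 h.valid n3)
    (fun y hy => upc_del h.cl.nodup (by
      rw [← hag.S] at hy
      exact List.mem_toFinset.1 hy)) (fun _ _ => rfl)
  unfold VApi.val
  rw [e2, e1]

/-- deletion of a pair of consecutive entries of the list which are neighbours with equal labels -/
theorem VApi.del_pair (T : VApi α) {D : Dat α} {s : Bool} {A B : List α} {a a' : α} {E : α → ℝ}
    (h : Crv D s (A ++ a :: a' :: B) E) (hlab : D.lab a = D.lab a')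
    (hgap : ∀ z ∈ A ++ a :: a' :: B, ¬ (min a a' < z ∧ z < max a a'))
    (hne : 0 < (A ++ B).length) :
    Crv D s (A ++ B) E ∧ T.val s (A ++ B) E = T.val s (A ++ a :: a' :: B) E := by
  have hk1 : A.length + 1 < (A ++ a :: a' :: B).length := by simp
  obtain ⟨b, hb⟩ := adj_page h.cl s hk1
  rw [g_a, g_b] at hb
  have haL : a ∈ A ++ a :: a' :: B := by simp
  have hb' : fO s (A ++ a :: a' :: B) b a' = a := by
    have := f_f h.cl s b haL
    rwa [hb] at this
  have haa : a ≠ a' := by
    have := f_ne h.cl s b haL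
    rw [hb] at this
    exact this.symm
  have hlen : 2 < (A ++ a :: a' :: B).length := by
    simp only [List.length_append, List.length_cons] at hne ⊢
    omega
  obtain ⟨x, hx, hlt, hlabx, hleaf⟩ : ∃ x, (x = a ∨ x = a') ∧
      x < fO s (A ++ a :: a' :: B) b x ∧ D.lab (fO s (A ++ a :: a' :: B) b x) = D.lab x ∧
      ∀ z ∈ A ++ a :: a' :: B, ¬ (x < z ∧ z < fO s (A ++ a :: a' :: B) b x) := by
    rcases lt_or_gt_of_ne haa with hh | hh
    · refine ⟨a, Or.inl rfl, ?_, ?_, ?_⟩
      · rw [hb]; exact hh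
      · rw [hb]; exact hlab.symm
      · intro z hz
        have := hgap z hz
        rw [min_eq_left hh.le, max_eq_right hh.le] at this
        rw [hb]; exact this
    · refine ⟨a', Or.inr rfl, ?_, ?_, ?_⟩
      · rw [hb']; exact hh
      · rw [hb']; exact hlab
      · intro z hz
        have := hgap z hz
        rw [min_eq_right hh.le, max_eq_left hh.le] at this
        rw [hb']; exact this
  exact T.del_core h hx hb hlen hlt hlabx hleaf

/-- removal of an empty finger. `v` is the list of pairs (out copy, back copy). -/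
theorem VApi.del_finger (T : VApi α) {D : Dat α} {s : Bool} {A B : List α} {E : α → ℝ}
    (hne : 0 < (A ++ B).length) (v : List (α × α))
    (hlab : ∀ r ∈ v, D.lab r.1 = D.lab r.2)
    (hgap : ∀ r ∈ v, ∀ z ∈ A ++ (v.map Prod.fst ++ (v.map Prod.snd).reverse) ++ B,
      ¬ (min r.1 r.2 < z ∧ z < max r.1 r.2))
    (h : Crv D s (A ++ (v.map Prod.fst ++ (v.map Prod.snd).reverse) ++ B) E) :
    Crv D s (A ++ B) E ∧
      T.val s (A ++ B) E = T.val s (A ++ (v.map Prod.fst ++ (v.map Prod.snd).reverse) ++ B) E := by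
  induction v using List.reverseRecOn with
  | nil => simpa using h
  | append_singleton v r ih =>
    have e : A ++ ((v ++ [r]).map Prod.fst ++ ((v ++ [r]).map Prod.snd).reverse) ++ B =
        (A ++ v.map Prod.fst) ++ r.1 :: r.2 :: ((v.map Prod.snd).reverse ++ B) := by
      simp
    have e' : A ++ (v.map Prod.fst ++ (v.map Prod.snd).reverse) ++ B =
        (A ++ v.map Prod.fst) ++ ((v.map Prod.snd).reverse ++ B) := by
      simp
    rw [e] at h hgap ⊢
    have hne' : 0 < ((A ++ v.map Prod.fst) ++ ((v.map Prod.snd).reverse ++ B)).length := by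
      simp only [List.length_append] at hne ⊢
      omega
    obtain ⟨h1, h2⟩ := T.del_pair h (hlab r (by simp)) (hgap r (by simp)) hne'
    rw [← e'] at h1 h2
    obtain ⟨h3, h4⟩ := ih (fun r' hr' => hlab r' (List.mem_append_left _ hr'))
      (fun r' hr' z hz => hgap r' (List.mem_append_left _ hr') z (by
        rw [e'] at hz
        rcases List.mem_append.1 hz with hz | hz
        · exact List.mem_append_left _ hz
        · exact List.mem_append_right _ (List.mem_cons_of_mem _ (List.mem_cons_of_mem _ hz)))) h1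
    exact ⟨h3, h4.trans h2⟩

/-- **(I1)** a backtrack can be removed -/
theorem VApi.backtrack (T : VApi α) {D : Dat α} {s : Bool} {L : List α} {E : α → ℝ}
    (h : Crv D s L E) (huniq : ∀ x ∈ L, x ≠ g L 0 → D.lab x ≠ D.lab (g L 0)) {b : Bool} {x₀ : α}
    (hx₀ : x₀ ∈ L) (hlab : D.lab (fO s L b x₀) = D.lab x₀) :
    ∃ A a a' B, L = A ++ a :: a' :: B ∧ 0 < A.length ∧ D.lab a = D.lab a' ∧
      Crv D s (A ++ B) E ∧ T.val s (A ++ B) E = T.val s L E := by
  obtain ⟨x, hxL, hlt, hxlab, hleaf⟩ := exists_leaf h hx₀ hlab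
  have hfL := f_mem h.cl s b hxL
  have h0 : x ≠ g L 0 := by
    intro hh
    refine huniq _ hfL ?_ ?_
    · rw [← hh]; exact f_ne h.cl s b hxL
    · rw [hxlab, ← hh]
  have h0' : fO s L b x ≠ g L 0 := by
    intro hh
    refine huniq x hxL h0 ?_
    rw [← hxlab, hh]
  obtain ⟨k, hk0, hk1, hk⟩ := partner_index h.cl hxL h0 h0'
  have hsp := split_at hk1
  refine ⟨L.take k, g L k, g L (k + 1), L.drop (k + 2), hsp, ?_, ?_, ?_⟩
  · rw [List.length_take]; omega
  · rcases hk with ⟨h1, h2⟩ | ⟨h1, h2⟩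
    · rw [← h1, ← h2, hxlab]
    · rw [← h1, ← h2, hxlab]
  · have hx' : x = g L k ∨ x = g L (k + 1) := by
      rcases hk with ⟨h1, h2⟩ | ⟨h1, h2⟩
      · exact Or.inl h1
      · exact Or.inr h1
    have hpa : fO s L b (g L k) = g L (k + 1) := by
      rcases hk with ⟨h1, h2⟩ | ⟨h1, h2⟩
      · rw [← h1, h2]
      · rw [← h2, ← h1]; exact f_f h.cl s b hxL
    have hlen : 2 < L.length := by have := h.cl.even; omega
    have := T.del_core (D := D) (s := s) (A := L.take k) (B := L.drop (k + 2)) (a := g L k)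
      (a' := g L (k + 1)) (E := E) (b := b) (x := x)
    rw [← hsp] at this
    exact this h hx' hpa hlen hlt hxlab hleaf

/-- every curve with a marked head can be reduced, without changing the value and the word -/
theorem VApi.exists_reduced (T : VApi α) {D : Dat α} {s : Bool} {E : α → ℝ} :
    ∀ (n : ℕ) (L : List α), L.length = n → Crv D s L E →
      (∀ x ∈ L, x ≠ g L 0 → D.lab x ≠ D.lab (g L 0)) →
      ∃ L', Crv D s L' E ∧ g L' 0 = g L 0 ∧ wd D s L' = wd D s L ∧ T.val s L' E = T.val s L E ∧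
        (∀ b, ∀ x ∈ L', D.lab (fO s L' b x) ≠ D.lab x) := by
  intro n
  induction n using Nat.strong_induction_on with
  | _ n ih =>
    intro L hn h hu
    by_cases hb : ∃ b, ∃ x ∈ L, D.lab (fO s L b x) = D.lab x
    · obtain ⟨b, x, hx, hxl⟩ := hb
      obtain ⟨A, a, a', B, hL, hA, haa, hC, hval⟩ := T.backtrack h hu hx hxl
      have hlen : (A ++ B).length < n := by
        rw [← hn, hL]; simp only [List.length_append, List.length_cons]; omega
      have h0 : g (A ++ B) 0 = g L 0 := by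
        rw [hL, g_del A B a a']
        unfold em; rw [if_pos hA]
      have hu' : ∀ x ∈ A ++ B, x ≠ g (A ++ B) 0 → D.lab x ≠ D.lab (g (A ++ B) 0) := by
        intro y hy
        rw [h0]
        refine hu y ?_
        rw [hL]
        simp only [List.mem_append, List.mem_cons] at hy ⊢
        tauto
      obtain ⟨L', k1, k2, k3, k4, k5⟩ := ih _ hlen (A ++ B) rfl hC hu'
      refine ⟨L', k1, k2.trans h0, ?_, k4.trans hval, k5⟩
      rw [k3, hL, wd_del D s A B haa]
    · push Not at hb
      exact ⟨L, h, rfl, rfl, rfl, hb⟩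

/-- two reduced curves with the same letters -/
theorem VApi.class_aux (T : VApi α) {D : Dat α} {s : Bool} {L₁ L₂ : List α} {E₁ E₂ : α → ℝ}
    (h₁ : Crv D s L₁ E₁) (h₂ : Crv D s L₂ E₂)
    (r₁ : ∀ b, ∀ x ∈ L₁, D.lab (fO s L₁ b x) ≠ D.lab x)
    (r₂ : ∀ b, ∀ x ∈ L₂, D.lab (fO s L₂ b x) ≠ D.lab x)
    (hmap : L₁.map D.lab = L₂.map D.lab) :
    T.val s L₁ E₁ - E₁ (g L₁ 0) = T.val s L₂ E₂ - E₂ (g L₂ 0) := by
  have hlen : L₁.length = L₂.length := by
    have := congrArg List.length hmap
    simpa using this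
  have hlab : ∀ i, i < L₁.length → D.lab (g L₁ i) = D.lab (g L₂ i) := by
    intro i hi
    have hi2 : i < L₂.length := hlen ▸ hi
    unfold g
    rw [List.getD_eq_getElem _ _ hi, List.getD_eq_getElem _ _ hi2]
    have h3 : (L₁.map D.lab)[i]'(by simpa using hi) = (L₂.map D.lab)[i]'(by simpa using hi2) := by
      simp only [hmap]
    simpa using h3
  let φ : α → α := fun x => g L₂ (L₁.idxOf x)
  have hφ : ∀ i, i < L₁.length → φ (g L₁ i) = g L₂ i := by
    intro i hi
    show g L₂ (L₁.idxOf (g L₁ i)) = g L₂ i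
    rw [idx_g h₁.cl.nodup hi]
  have hφmem : ∀ x ∈ L₁, φ x ∈ L₂ := by
    intro x hx
    obtain ⟨i, hi, rfl⟩ := ex_idx hx
    rw [hφ i hi]; exact g_mem (hlen ▸ hi)
  have hφf : ∀ b, ∀ x ∈ L₁, φ (fO s L₁ b x) = fO s L₂ b (φ x) := by
    intro b x hx
    obtain ⟨i, hi, rfl⟩ := ex_idx hx
    rw [f_g h₁.cl s b hi, hφ i hi, f_g h₂.cl s b (hlen ▸ hi), hφ _ (pI_lt h₁.cl.even hi), hlen]
  have hφlab : ∀ x ∈ L₁, D.lab (φ x) = D.lab x := by
    intro x hx
    obtain ⟨i, hi, rfl⟩ := ex_idx hx
    rw [hφ i hi, hlab i hi]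
  have hφinj : ∀ x ∈ L₁, ∀ y ∈ L₁, φ x = φ y → x = y := by
    intro x hx y hy hxy
    obtain ⟨i, hi, rfl⟩ := ex_idx hx
    obtain ⟨j, hj, rfl⟩ := ex_idx hy
    rw [hφ i hi, hφ j hj] at hxy
    rw [g_inj h₂.cl.nodup (hlen ▸ hi) (hlen ▸ hj) hxy]
  have hφsurj : ∀ y ∈ L₂, ∃ x ∈ L₁, φ x = y := by
    intro y hy
    obtain ⟨j, hj, rfl⟩ := ex_idx hy
    exact ⟨g L₁ j, g_mem (hlen ▸ hj), hφ j (hlen ▸ hj)⟩
  -- the two planar diagrams
  have mk : ∀ (L : List α) (E : α → ℝ), Crv D s L E →
      (∀ b, ∀ x ∈ L, D.lab (fO s L b x) ≠ D.lab x) →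
      ∃ G : Dg {x // x ∈ L} ℕ, (∀ x, G.gap x = D.lab x.1) ∧ (∀ x, (G.u x).1 = fO s L true x.1) ∧
        (∀ x, (G.l x).1 = fO s L false x.1) := by
    intro L E h r
    have ncb : ∀ b, NC (fun x : {x // x ∈ L} => (⟨fO s L b x.1, f_mem h.cl s b x.2⟩ :
        {x // x ∈ L})) := by
      intro b a c hac hc
      have hac' : a.1 < c.1 := hac
      have hc' : c.1 < fO s L b a.1 := hc
      have := h.pl b a.1 a.2 c.1 c.2 (Or.inl ⟨hac', hc'⟩)
      show a.1 < fO s L b c.1 ∧ fO s L b c.1 < fO s L b a.1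
      rcases this with hh | hh | hh
      · exact hh
      · exact absurd (hac'.trans hc') (not_lt.2 hh.2.le)
      · exact absurd (hac'.trans hc') (not_lt.2 hh.1.le)
    exact ⟨{
      gap := fun x => D.lab x.1
      gap_mono := fun x y hxy => D.mono hxy
      u := fun x => ⟨fO s L true x.1, f_mem h.cl s true x.2⟩
      l := fun x => ⟨fO s L false x.1, f_mem h.cl s false x.2⟩
      uu := fun x => Subtype.ext (f_f h.cl s true x.2)
      ll := fun x => Subtype.ext (f_f h.cl s false x.2)
      u_nc := ncb true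
      l_nc := ncb false
      u_red := fun x => r true x.1 x.2
      l_red := fun x => r false x.1 x.2 }, fun _ => rfl, fun _ => rfl, fun _ => rfl⟩
  obtain ⟨G₁, g1, g2, g3⟩ := mk L₁ E₁ h₁ r₁
  obtain ⟨G₂, k1, k2, k3⟩ := mk L₂ E₂ h₂ r₂
  let ψ : {x // x ∈ L₁} → {x // x ∈ L₂} := fun x => ⟨φ x.1, hφmem x.1 x.2⟩
  haveI : Finite {x // x ∈ L₁} := by
    have : Finite {x // x ∈ L₁.toFinset} := inferInstance
    exact Finite.of_injective (β := {x // x ∈ L₁.toFinset})
      (fun x => ⟨x.1, by simpa using x.2⟩) (fun x y hxy => Subtype.ext (by simpa using hxy))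
  have hmono : StrictMono ψ := by
    refine unique G₁ G₂ ?_ ψ ?_ ?_ ?_ ?_
    · intro S hS hu hl x
      obtain ⟨x₀, hx₀⟩ := hS
      have := f_conn h₁.cl s {y | ∃ hy : y ∈ L₁, (⟨y, hy⟩ : {x // x ∈ L₁}) ∈ S}
        ⟨x₀.1, x₀.2, x₀.2, hx₀⟩ ?_ x.1 x.2
      · obtain ⟨_, hh⟩ := this; exact hh
      · intro b y hy hyS
        obtain ⟨hy', hyS⟩ := hyS
        refine ⟨f_mem h₁.cl s b hy, ?_⟩
        cases b
        · have := hl _ hyS
          have e : G₁.l ⟨y, hy'⟩ = ⟨fO s L₁ false y, f_mem h₁.cl s false hy⟩ :=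
            Subtype.ext (g3 _)
          rwa [e] at this
        · have := hu _ hyS
          have e : G₁.u ⟨y, hy'⟩ = ⟨fO s L₁ true y, f_mem h₁.cl s true hy⟩ :=
            Subtype.ext (g2 _)
          rwa [e] at this
    · intro x y hxy
      exact Subtype.ext (hφinj x.1 x.2 y.1 y.2 (congrArg Subtype.val hxy))
    · intro x
      rw [g1, k1]; exact hφlab x.1 x.2
    · intro x
      apply Subtype.ext
      rw [k2]
      show φ (G₁.u x).1 = _
      rw [g2]; exact hφf true x.1 x.2
    · intro x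
      apply Subtype.ext
      rw [k3]
      show φ (G₁.l x).1 = _
      rw [g3]; exact hφf false x.1 x.2
  have hlt : ∀ x ∈ L₁, ∀ y ∈ L₁, x < y → φ x < φ y := by
    intro x hx y hy hxy
    exact hmono (a := ⟨x, hx⟩) (b := ⟨y, hy⟩) hxy
  have hiff : ∀ x ∈ L₁, ∀ y ∈ L₁, (φ x < φ y ↔ x < y) := by
    intro x hx y hy
    constructor
    · intro hh
      rcases lt_trichotomy x y with h | h | h
      · exact h
      · rw [h] at hh; exact absurd hh (lt_irrefl _)
      · exact absurd (hlt y hy x hx h) (not_lt.2 hh.le)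
    · exact hlt x hx y hy
  -- the phases differ by a constant
  have hconst : ∀ x ∈ L₁, E₂ (φ x) - E₁ x = E₂ (φ (g L₁ 0)) - E₁ (g L₁ 0) := by
    refine f_conn h₁.cl s {x | E₂ (φ x) - E₁ x = E₂ (φ (g L₁ 0)) - E₁ (g L₁ 0)}
      ⟨g L₁ 0, g_mem h₁.cl.pos, rfl⟩ ?_
    intro b x hx hxS
    have hxS' : E₂ (φ x) - E₁ x = E₂ (φ (g L₁ 0)) - E₁ (g L₁ 0) := hxS
    show E₂ (φ (fO s L₁ b x)) - E₁ (fO s L₁ b x) = _
    have i1 := h₁.inc b x hx
    have i2 := h₂.inc b (φ x) (hφmem x hx)
    rw [← hφf b x hx] at i2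
    rw [hφlab x hx, hφlab _ (f_mem h₁.cl s b hx)] at i2
    have hif : (if φ x < φ (fO s L₁ b x) then -D.M else D.M) =
        (if x < fO s L₁ b x then -D.M else D.M) := by
      have := hiff x hx _ (f_mem h₁.cl s b hx)
      by_cases c : x < fO s L₁ b x
      · rw [if_pos c, if_pos (this.2 c)]
      · rw [if_neg c, if_neg (fun hh => c (this.1 hh))]
    rw [hif, ← i1] at i2
    have hsg : sg b = 1 ∨ sg b = -1 := by cases b <;> simp [sg]
    rcases hsg with hs | hs <;> rw [hs] at i2 <;> linarith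
  have h0 : φ (g L₁ 0) = g L₂ 0 := hφ 0 h₁.cl.pos
  set t := E₂ (g L₂ 0) - E₁ (g L₁ 0) with ht
  rw [h0] at hconst
  -- shift the phase of the first curve
  have hv₁ := h₁.valid
  have hsh : (cfg s L₁).Valid (fun x => E₁ x + t) D.M := by
    intro b T' hT' hPD
    have := hv₁ b T' hT' hPD
    refine le_trans (le_of_eq ?_) this
    apply Finset.sum_congr rfl
    intro x _
    show D.M + sg b * (E₁ _ + t - (E₁ x + t)) = D.M + sg b * (E₁ _ - E₁ x)
    ring
  have hiso : Iso φ (cfg s L₁) (cfg s L₂) := by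
    refine iso_of_mono ?_ ?_ ?_ ?_
    · intro x hx y hy hxy
      simp only [cfg_S, Finset.mem_coe, List.mem_toFinset] at hx hy
      exact hlt x hx y hy hxy
    · intro x hx
      simp only [cfg_S, List.mem_toFinset] at hx ⊢
      exact hφmem x hx
    · intro y hy
      simp only [cfg_S, List.mem_toFinset] at hy ⊢
      exact hφsurj y hy
    · intro b x hx
      simp only [cfg_S, List.mem_toFinset] at hx
      exact hφf b x hx
  have e1 := T.iso (upc s L₁) (upc s L₂) (cfg s L₁) (cfg s L₂) (fun x => E₁ x + t) E₂ D.M φ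
    (colOK_upc h₁.cl s) (colOK_upc h₂.cl s) h₁.good h₂.good hsh h₂.valid hiso
    (by
      intro x hx
      simp only [cfg_S, List.mem_toFinset] at hx
      have := hconst x hx
      linarith)
    (by
      intro x hx
      simp only [cfg_S, List.mem_toFinset] at hx
      obtain ⟨i, hi, rfl⟩ := ex_idx hx
      rw [hφ i hi, upc_g h₂.cl.nodup (hlen ▸ hi), upc_g h₁.cl.nodup hi])
  have e2 := T.add (upc s L₁) (cfg s L₁) E₁ D.M t (colOK_upc h₁.cl s) h₁.good hv₁
  unfold VApi.val
  rw [← e1, e2, ht]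
  ring

/-- **(I2) The class theorem.** The value of the selector, normalised at a marked head, is a
function of the word in the free group on the gaps. -/
theorem VApi.class_eq (T : VApi α) {D : Dat α} {s : Bool} {L₁ L₂ : List α} {E₁ E₂ : α → ℝ}
    (h₁ : Crv D s L₁ E₁) (h₂ : Crv D s L₂ E₂)
    (u₁ : ∀ x ∈ L₁, x ≠ g L₁ 0 → D.lab x ≠ D.lab (g L₁ 0))
    (u₂ : ∀ x ∈ L₂, x ≠ g L₂ 0 → D.lab x ≠ D.lab (g L₂ 0))
    (hw : wd D s L₁ = wd D s L₂) :
    T.val s L₁ E₁ - E₁ (g L₁ 0) = T.val s L₂ E₂ - E₂ (g L₂ 0) := by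
  obtain ⟨M₁, a1, a2, a3, a4, a5⟩ := T.exists_reduced _ L₁ rfl h₁ u₁
  obtain ⟨M₂, b1, b2, b3, b4, b5⟩ := T.exists_reduced _ L₂ rfl h₂ u₂
  have red : ∀ (M : List α) (E : α → ℝ), Crv D s M E →
      (∀ b, ∀ x ∈ M, D.lab (fO s M b x) ≠ D.lab x) →
      FreeGroup.IsReduced (wl D.lab s M) := by
    intro M E h r
    refine wl_reduced _ _ _ fun k hk => ?_
    obtain ⟨b, hb⟩ := adj_page h.cl s hk
    have := r b (g M k) (g_mem (by omega))
    rw [hb] at this
    exact this.symm
  have r1 := red M₁ E₁ a1 a5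
  have r2 := red M₂ E₂ b1 b5
  have hw' : FreeGroup.mk (wl D.lab s M₁) = FreeGroup.mk (wl D.lab s M₂) := by
    have : wd D s M₁ = wd D s M₂ := by rw [a3, b3, hw]
    exact this
  have hw2 := FreeGroup.reduce.sound hw'
  rw [r1.reduce_eq, r2.reduce_eq] at hw2
  have hmap := wl_map _ _ _ _ _ hw2
  have := T.class_aux a1 b1 a5 b5 hmap
  rw [a2, a4, b2, b4] at this
  exact this

end val

end P040H251
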