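import Mathlib

/-!
Uniqueness of the reduced planar diagram of a cyclic gap word (P040, helper251).
-/

namespace P040H251

/-- Two points of one page never interleave. -/
def NC {W : Type*} [LinearOrder W] (f : W → W) : Prop :=
  ∀ a b, a < b → b < f a → a < f b ∧ f b < f a

/-- A planar spine diagram: finitely many points on a line, a monotone gap label,
an upper and a lower noncrossing fixed point free involution. -/
structure Dg (W : Type*) [LinearOrder W] (G : Type*) [LinearOrder G] where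
  gap : W → G
  gap_mono : Monotone gap
  u : W → W
  l : W → W
  uu : ∀ x, u (u x) = x
  ll : ∀ x, l (l x) = x
  u_nc : NC u
  l_nc : NC l
  /-- reduced: no chord has both ends in one gap -/
  u_red : ∀ x, gap (u x) ≠ gap x
  l_red : ∀ x, gap (l x) ≠ gap x

/-- Order of the partners: if `p < q` are in one gap then the partners are, in the cyclic order
seen from this gap, in the opposite order. -/
theorem nc_order {W : Type*} [LinearOrder W] {G : Type*} [LinearOrder G]
    {gap : W → G} (hm : Monotone gap) {f : W → W} (ff : ∀ x, f (f x) = x) (hnc : NC f)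
    (hred : ∀ x, gap (f x) ≠ gap x) {p q : W} (hpq : p < q) (hg : gap p = gap q) :
    (q < f p ∧ q < f q ∧ f q < f p) ∨ (f p < p ∧ f q < p ∧ f q < f p) ∨
      (f p < p ∧ q < f q) := by
  have key : ∀ x, gap x ≠ gap p → x < p ∨ q < x := by
    intro x hx
    by_contra hcon
    push Not at hcon
    have h1 : gap p ≤ gap x := hm hcon.1
    have h2 : gap x ≤ gap q := hm hcon.2
    exact hx (le_antisymm (h2.trans hg.ge) h1)
  have hp := key (f p) (hred p)
  have hq := key (f q) (by rw [hg]; exact hred q)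
  rcases hp with hp | hp
  · rcases hq with hq | hq
    · refine Or.inr (Or.inl ⟨hp, hq, ?_⟩)
      by_contra hcon
      push Not at hcon
      rcases hcon.lt_or_eq with hlt | heq
      · have := hnc (f p) (f q) hlt (by rw [ff]; exact hq)
        rw [ff, ff] at this
        exact absurd this.2 (not_lt.mpr hpq.le)
      · have : f (f p) = f (f q) := by rw [heq]
        rw [ff, ff] at this
        exact absurd this hpq.ne
    · exact Or.inr (Or.inr ⟨hp, hq⟩)
  · have h := hnc p q hpq hp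
    rcases hq with hq | hq
    · exact absurd h.1 (not_lt.mpr hq.le)
    · exact Or.inl ⟨hp, hq, h.2⟩

/-- A bad pair propagates through a page. -/
theorem bad_step {W₁ W₂ : Type*} [LinearOrder W₁] [LinearOrder W₂] {G : Type*} [LinearOrder G]
    {g₁ : W₁ → G} {g₂ : W₂ → G} (m₁ : Monotone g₁) (m₂ : Monotone g₂)
    {f₁ : W₁ → W₁} {f₂ : W₂ → W₂} (i₁ : ∀ x, f₁ (f₁ x) = x) (i₂ : ∀ x, f₂ (f₂ x) = x)
    (n₁ : NC f₁) (n₂ : NC f₂) (r₁ : ∀ x, g₁ (f₁ x) ≠ g₁ x) (r₂ : ∀ x, g₂ (f₂ x) ≠ g₂ x)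
    {φ : W₁ → W₂} (hg : ∀ x, g₂ (φ x) = g₁ x) (hf : ∀ x, φ (f₁ x) = f₂ (φ x))
    {p q : W₁} (hpq : p < q) (hgap : g₁ p = g₁ q) (hbad : φ q < φ p) :
    f₁ q < f₁ p ∧ g₁ (f₁ q) = g₁ (f₁ p) ∧ φ (f₁ p) < φ (f₁ q) := by
  have h1 := nc_order m₁ i₁ n₁ r₁ hpq hgap
  have h2 := nc_order m₂ i₂ n₂ r₂ hbad (by rw [hg, hg, hgap])
  rw [← hf, ← hf] at h2
  -- the gap of `f₁ p` decides on which side it lies in both diagrams
  have hpR : ∀ x y, y < x → g₁ x ≠ g₁ y → φ y < φ x := by
    intro x y hxy hne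
    have : g₁ y < g₁ x := lt_of_le_of_ne (m₁ hxy.le) (Ne.symm hne)
    by_contra hcon
    push Not at hcon
    have := m₂ hcon
    rw [hg, hg] at this
    exact absurd this (not_le.mpr ‹g₁ y < g₁ x›)
  rcases h1 with ⟨a1, a2, a3⟩ | ⟨a1, a2, a3⟩ | ⟨a1, a2⟩
  · -- both right
    have b1 : φ q < φ (f₁ p) := hpR _ _ a1 (by rw [← hgap]; exact r₁ p)
    have b2 : φ p < φ (f₁ q) := hpR _ _ (hpq.trans a2) (by rw [hgap]; exact r₁ q)
    rcases h2 with ⟨c1, c2, c3⟩ | ⟨c1, c2, c3⟩ | ⟨c1, c2⟩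
    · refine ⟨a3, ?_, c3⟩
      apply le_antisymm (m₁ a3.le)
      have := m₂ c3.le
      rwa [hg, hg] at this
    · exact absurd c1 (not_lt.mpr (hbad.trans b2).le)
    · exact absurd c1 (not_lt.mpr (hbad.trans b2).le)
  · -- both left
    have b1 : φ (f₁ p) < φ p := hpR _ _ a1 (by exact (r₁ p).symm)
    have b2 : φ (f₁ q) < φ q := hpR _ _ (a2.trans hpq) (by exact (r₁ q).symm)
    rcases h2 with ⟨c1, c2, c3⟩ | ⟨c1, c2, c3⟩ | ⟨c1, c2⟩
    · exact absurd c2 (not_lt.mpr b1.le)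
    · refine ⟨a3, ?_, c3⟩
      apply le_antisymm (m₁ a3.le)
      have := m₂ c3.le
      rwa [hg, hg] at this
    · exact absurd c2 (not_lt.mpr b1.le)
  · -- `f₁ p` left, `f₁ q` right: impossible
    exfalso
    have b1 : φ (f₁ p) < φ q := hpR _ _ (a1.trans hpq) (by rw [← hgap]; exact (r₁ p).symm)
    have b2 : φ p < φ (f₁ q) := hpR _ _ (hpq.trans a2) (by rw [hgap]; exact r₁ q)
    rcases h2 with ⟨c1, c2, c3⟩ | ⟨c1, c2, c3⟩ | ⟨c1, c2⟩
    · exact absurd c2 (not_lt.mpr (b1.trans hbad).le)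
    · exact absurd c1 (not_lt.mpr (hbad.trans b2).le)
    · exact absurd c1 (not_lt.mpr (hbad.trans b2).le)

/-- **Uniqueness.** A label preserving isomorphism between two connected reduced planar
diagrams is monotone. -/
theorem unique {W₁ W₂ : Type*} [LinearOrder W₁] [Finite W₁] [LinearOrder W₂] {G : Type*}
    [LinearOrder G] (D₁ : Dg W₁ G) (D₂ : Dg W₂ G)
    (hconn : ∀ S : Set W₁, S.Nonempty → (∀ x ∈ S, D₁.u x ∈ S) → (∀ x ∈ S, D₁.l x ∈ S) →
      ∀ x, x ∈ S)
    (φ : W₁ → W₂) (hinj : Function.Injective φ) (hg : ∀ x, D₂.gap (φ x) = D₁.gap x)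
    (hu : ∀ x, φ (D₁.u x) = D₂.u (φ x)) (hl : ∀ x, φ (D₁.l x) = D₂.l (φ x)) :
    StrictMono φ := by
  classical
  -- the bad relation
  let bad : W₁ → W₁ → Prop := fun p q => p < q ∧ D₁.gap p = D₁.gap q ∧ φ q < φ p
  have badu : ∀ p q, bad p q → bad (D₁.u q) (D₁.u p) := by
    rintro p q ⟨h1, h2, h3⟩
    exact bad_step D₁.gap_mono D₂.gap_mono D₁.uu D₂.uu D₁.u_nc D₂.u_nc D₁.u_red D₂.u_red
      hg hu h1 h2 h3
  have badl : ∀ p q, bad p q → bad (D₁.l q) (D₁.l p) := by
    rintro p q ⟨h1, h2, h3⟩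
    exact bad_step D₁.gap_mono D₂.gap_mono D₁.ll D₂.ll D₁.l_nc D₂.l_nc D₁.l_red D₂.l_red
      hg hl h1 h2 h3
  let t : Equiv.Perm W₁ :=
    { toFun := fun x => D₁.l (D₁.u x)
      invFun := fun x => D₁.u (D₁.l x)
      left_inv := fun x => by simp only [D₁.ll, D₁.uu]
      right_inv := fun x => by simp only [D₁.ll, D₁.uu] }
  have ht : ∀ x, t x = D₁.l (D₁.u x) := fun _ => rfl
  have ht' : ∀ x, t.symm x = D₁.u (D₁.l x) := fun _ => rfl
  have badt : ∀ p q, bad p q → bad (t p) (t q) := fun p q h => badl _ _ (badu _ _ h)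
  have badtn : ∀ (n : ℕ) p q, bad p q → bad ((t ^ n) p) ((t ^ n) q) := by
    intro n
    induction n with
    | zero => intro p q h; simpa using h
    | succ n ih =>
      intro p q h
      have := badt _ _ (ih p q h)
      rwa [pow_succ', Equiv.Perm.mul_apply, Equiv.Perm.mul_apply]
  -- parallel case
  have par : ∀ (n : ℕ) p, ¬ bad p ((t ^ n) p) := by
    intro n p hb
    have chain : ∀ k : ℕ, p < ((t ^ n) ^ (k + 1)) p := by
      intro k
      induction k with
      | zero => simpa using hb.1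
      | succ k ih =>
        have h1 := (badtn (n * (k + 1)) _ _ hb).1
        rw [pow_mul] at h1
        rw [← Equiv.Perm.mul_apply, ← pow_succ] at h1
        exact ih.trans h1
    have hfin : Finite (Equiv.Perm W₁) := inferInstance
    have ho : 0 < orderOf (t ^ n) := orderOf_pos_iff.mpr (isOfFinOrder_of_finite _)
    obtain ⟨k, hk⟩ := Nat.exists_eq_succ_of_ne_zero ho.ne'
    have := chain k
    rw [← Nat.succ_eq_add_one, ← hk, pow_orderOf_eq_one] at this
    exact lt_irrefl _ this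
  -- antiparallel case
  have anti : ∀ (n : ℕ) p, ¬ bad p ((t ^ n) (D₁.u p)) := by
    intro n
    induction n using Nat.strong_induction_on with
    | _ n ih =>
      intro p hb
      match n with
      | 0 =>
        exact D₁.u_red p (by simpa using hb.2.1.symm)
      | 1 =>
        have : (t ^ 1) (D₁.u p) = D₁.l p := by
          rw [pow_one, ht, D₁.uu]
        rw [this] at hb
        exact D₁.l_red p hb.2.1.symm
      | n + 2 =>
        have h1 := badu _ _ (badl _ _ hb)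
        have e1 : D₁.u (D₁.l ((t ^ (n + 2)) (D₁.u p))) = (t ^ n) (D₁.u (D₁.u (D₁.l p))) := by
          have : (t ^ (n + 2)) (D₁.u p) = t ((t ^ n) (t (D₁.u p))) := by
            rw [← Equiv.Perm.mul_apply, ← Equiv.Perm.mul_apply, ← pow_succ', ← pow_succ]
          rw [this, ← ht', Equiv.symm_apply_apply, ht, D₁.uu, D₁.uu]
        rw [e1] at h1
        exact ih n (by omega) _ h1
  -- every point is reached
  have reach : ∀ p q, (∃ n : ℕ, q = (t ^ n) p) ∨ (∃ n : ℕ, q = (t ^ n) (D₁.u p)) := by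
    intro p q
    have hz : ∀ (x : W₁) (n : ℤ), ∃ k : ℕ, (t ^ n) x = (t ^ k) x := by
      intro x n
      have hfo : IsOfFinOrder t := isOfFinOrder_of_finite t
      have hmem : t ^ n ∈ Submonoid.powers t := by
        rw [hfo.mem_powers_iff_mem_zpowers]
        exact ⟨n, rfl⟩
      obtain ⟨k, hk⟩ := hmem
      exact ⟨k, by rw [← hk]⟩
    have hS := hconn {y | (∃ n : ℤ, y = (t ^ n) p) ∨ (∃ n : ℤ, y = (t ^ n) (D₁.u p))}
      ⟨p, Or.inl ⟨0, by simp⟩⟩
    have conj : ∀ (n : ℕ) x, D₁.u ((t ^ n) x) = (t.symm ^ n) (D₁.u x) := by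
      intro n
      induction n with
      | zero => intro x; simp
      | succ n ih =>
        intro x
        rw [pow_succ, Equiv.Perm.mul_apply, ih, pow_succ, Equiv.Perm.mul_apply, ht', ht]
    have conj' : ∀ (n : ℕ) x, D₁.u ((t.symm ^ n) x) = (t ^ n) (D₁.u x) := by
      intro n x
      have := conj n (D₁.u ((t.symm ^ n) x))
      -- use injectivity
      have h2 := congrArg D₁.u (conj n (D₁.u x))
      rw [D₁.uu, D₁.uu] at h2
      rw [h2]
    have conjz : ∀ (n : ℤ) x, D₁.u ((t ^ n) x) = (t ^ (-n)) (D₁.u x) := by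
      intro n x
      obtain ⟨k, rfl | rfl⟩ := n.eq_nat_or_neg
      · rw [zpow_natCast, conj, zpow_neg, zpow_natCast, ← inv_pow]; rfl
      · rw [neg_neg, zpow_natCast, zpow_neg, zpow_natCast, ← inv_pow]
        exact conj' k x
    have hS' := hS ?_ ?_ q
    · rcases hS' with ⟨n, hn⟩ | ⟨n, hn⟩
      · obtain ⟨k, hk⟩ := hz p n
        exact Or.inl ⟨k, by rw [hn, hk]⟩
      · obtain ⟨k, hk⟩ := hz (D₁.u p) n
        exact Or.inr ⟨k, by rw [hn, hk]⟩
    · rintro x (⟨n, rfl⟩ | ⟨n, rfl⟩)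
      · exact Or.inr ⟨-n, conjz n p⟩
      · exact Or.inl ⟨-n, by rw [conjz, D₁.uu]⟩
    · -- `l x = t (u x)`
      have hlx : ∀ x, D₁.l x = t (D₁.u x) := fun x => by rw [ht, D₁.uu]
      rintro x (⟨n, rfl⟩ | ⟨n, rfl⟩)
      · refine Or.inr ⟨1 + -n, ?_⟩
        rw [hlx, conjz, zpow_add, zpow_one, Equiv.Perm.mul_apply]
      · refine Or.inl ⟨1 + -n, ?_⟩
        rw [hlx, conjz, D₁.uu, zpow_add, zpow_one, Equiv.Perm.mul_apply]
  intro x y hxy
  rcases lt_trichotomy (φ x) (φ y) with h | h | h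
  · exact h
  · exact absurd (hinj h) hxy.ne
  · exfalso
    have hgap : D₁.gap x = D₁.gap y := by
      apply le_antisymm (D₁.gap_mono hxy.le)
      have := D₂.gap_mono h.le
      rwa [hg, hg] at this
    have hb : bad x y := ⟨hxy, hgap, h⟩
    rcases reach x y with ⟨n, hn⟩ | ⟨n, hn⟩
    · exact par n x (hn ▸ hb)
    · exact anti n x (hn ▸ hb)

end P040H251
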